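import Vale.Agent.P095.Rel.Unitisation
import Vale.Agent.P101.Lit.Transfer.MapSt
import Vale.Agent.P101.Lit.Conn
import Vale.Agent.P101.Lit.Tensor

/-!
P095, nonunital algebras: the stages of the ideal `A` inside the stages of its unitisation.
-/

open scoped ComplexOrder unitInterval

namespace Vale.Agent.P095.Rel

open Vale.Agent.P101.Lit

variable {B : Type*} [CStarAlgebra B] [PartialOrder B] [StarOrderedRing B] (A : Submodule ℂ B)

/-- The stage elements with all entries in `A`. -/
def StI (p q : ℕ) : Submodule ℂ (St B p q) where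
  carrier := {f | ∀ t x y, (f : Amb B p q) t x y ∈ A}
  add_mem' {f g} hf hg t x y := A.add_mem (hf t x y) (hg t x y)
  zero_mem' _ _ _ := A.zero_mem
  smul_mem' r f hf t x y := A.smul_mem r (hf t x y)

variable {A} {p q : ℕ}

theorem cst_mem_StI {a : B} (ha : a ∈ A) : cst B p q a ∈ StI A p q := fun t x y => by
  rw [cst_apply]
  split_ifs
  · exact ha
  · exact A.zero_mem

theorem mul_mem_StI [IsUnitisation A] (b : St B p q) {f : St B p q} (hf : f ∈ StI A p q) :
    b * f ∈ StI A p q ∧ f * b ∈ StI A p q := by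
  constructor <;> intro t x y
  · show ((b : Amb B p q) t * (f : Amb B p q) t) x y ∈ A
    rw [CStarMatrix.mul_apply]
    exact sum_mem fun z _ => (IsUnitisation.bimod _ _ (hf t z y)).1
  · show ((f : Amb B p q) t * (b : Amb B p q) t) x y ∈ A
    rw [CStarMatrix.mul_apply]
    exact sum_mem fun z _ => (IsUnitisation.bimod _ _ (hf t x z)).2

theorem star_mem_StI [IsUnitisation A] {f : St B p q} (hf : f ∈ StI A p q) :
    star f ∈ StI A p q :=
  fun t x y => IsUnitisation.star_mem _ (hf t y x)

theorem isClosed_StI [IsUnitisation A] : IsClosed (StI A p q : Set (St B p q)) := by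
  have e : (StI A p q : Set (St B p q)) =
      ⋂ t : I, ⋂ x, ⋂ y, (fun f : St B p q => (f : Amb B p q) t x y) ⁻¹' (A : Set B) := by
    ext f
    simp [StI]
  rw [e]
  exact isClosed_iInter fun t => isClosed_iInter fun x => isClosed_iInter fun y =>
    (IsUnitisation.closed (A := A)).preimage
      ((continuous_entry x y t).comp continuous_subtype_val)

theorem mapSt_mem_StI {f : B →⋆ₐ[ℂ] B} (hf : ∀ a ∈ A, f a ∈ A) {x : St B p q}
    (hx : x ∈ StI A p q) : P101.Lit.mapSt f x ∈ StI A p q :=
  fun t i j => hf _ (hx t i j)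

theorem stepHom_mem_StI {i : ℕ} {x : St B (pp i) (qq i)} (hx : x ∈ StI A (pp i) (qq i)) :
    stepHom B i x ∈ StI A (pp (i + 1)) (qq (i + 1)) := fun t a b => by
  show stepVal (stepPath (pp i) (qq i) (kl i) (kr i) t)
    (fun w i₁ i₂ => (x : Amb B (pp i) (qq i)) (xi (pp i) (qq i) (kl i) (kr i) w t) i₁ i₂) a b ∈ A
  exact sum_mem fun w _ => sum_mem fun i₁ _ => sum_mem fun i₂ _ => A.smul_mem _ (hx _ _ _)

theorem push_mem_StI {i : ℕ} (n : ℕ) {x : St B (pp i) (qq i)} (hx : x ∈ StI A (pp i) (qq i)) :
    push B i n x ∈ StI A (pp (i + n)) (qq (i + n)) := by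
  induction n with
  | zero => exact hx
  | succ n ih => rw [push_succ]; exact stepHom_mem_StI ih

theorem conn_mem_StI {i l : ℕ} (h : i ≤ l) {x : St B (pp i) (qq i)}
    (hx : x ∈ StI A (pp i) (qq i)) : conn h x ∈ StI A (pp l) (qq l) := by
  obtain ⟨n, rfl⟩ := Nat.exists_eq_add_of_le h
  rw [conn_push]
  exact push_mem_StI n hx

/-- Elements of a stage of `A` are near tensors with coefficients in `A`. -/
theorem exists_tensor_approx_StI [IsUnitisation A] {x : St B p q} (hx : x ∈ StI A p q) {ε : ℝ}
    (hε : 0 < ε) :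
    ∃ (n : ℕ) (b : Fin n → B) (h : Fin n → St ℂ p q), (∀ l, b l ∈ A) ∧
      ‖x - ∑ l, cst B p q (b l) * lift B p q (h l)‖ ≤ ε := by
  by_cases h1 : (1 : B) ∈ A
  · obtain ⟨n, b, h, hb⟩ := exists_tensor_approx x hε
    refine ⟨n, b, h, fun l => ?_, hb⟩
    simpa using (IsUnitisation.bimod (b l) 1 h1).1
  choose r hr using IsUnitisation.span (A := A)
  have huniq : ∀ b s, b - s • (1 : B) ∈ A → r b = s := fun b s hs => by
    by_contra hne
    refine h1 ?_
    have h2 := A.smul_mem (r b - s)⁻¹ (A.sub_mem hs (hr b))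
    rwa [sub_sub_sub_cancel_left, ← sub_smul, inv_smul_smul₀ (sub_ne_zero.2 hne)] at h2
  let θ : B →⋆ₐ[ℂ] B :=
    { toFun := fun b => r b • (1 : B)
      map_one' := by simp [huniq 1 1 (by simp)]
      map_mul' := fun b c => by
        have e : b * c - (r b * r c) • (1 : B) =
            (b - r b • (1 : B)) * c + r b • (c - r c • (1 : B)) := by
          simp [sub_mul, smul_sub, smul_smul]
        simp only [huniq _ _ (e ▸ A.add_mem (IsUnitisation.bimod c _ (hr b)).2
          (A.smul_mem _ (hr c))), smul_mul_smul_comm, one_mul]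
      map_zero' := by simp [huniq 0 0 (by simp)]
      map_add' := fun b c => by
        have e : b + c - (r b + r c) • (1 : B) = (b - r b • (1 : B)) + (c - r c • (1 : B)) := by
          rw [add_smul]; abel
        simp only [huniq _ _ (e ▸ A.add_mem (hr b) (hr c)), add_smul]
      commutes' := fun s => by
        have e : algebraMap ℂ B s - s • (1 : B) = 0 := by
          rw [Algebra.algebraMap_eq_smul_one, sub_self]
        rw [huniq _ s (e ▸ A.zero_mem), Algebra.algebraMap_eq_smul_one]
      map_star' := fun b => by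
        have e : star b - star (r b) • (1 : B) = star (b - r b • (1 : B)) := by simp
        simp only [huniq _ _ (e ▸ IsUnitisation.star_mem _ (hr b)), star_smul, star_one] }
  obtain ⟨n, b, h, hb⟩ := exists_tensor_approx x (half_pos hε)
  refine ⟨n, fun l => b l - θ (b l), h, fun l => hr (b l), ?_⟩
  have hθx : P101.Lit.mapSt θ x = 0 :=
    Subtype.ext (ContinuousMap.ext fun t => CStarMatrix.ext fun i j => by
      show r ((x : Amb B p q) t i j) • (1 : B) = 0
      rw [huniq _ 0 (by simpa using hx t i j), zero_smul])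
  have h2 := NonUnitalStarAlgHom.norm_apply_le (P101.Lit.mapSt (p := p) (q := q) θ)
    (x - ∑ l, cst B p q (b l) * lift B p q (h l))
  rw [map_sub, hθx, zero_sub, norm_neg, mapSt_tensor] at h2
  have e : ∑ l, cst B p q (b l - θ (b l)) * lift B p q (h l) =
      ∑ l, cst B p q (b l) * lift B p q (h l) -
        ∑ l, cst B p q (θ (b l)) * lift B p q (h l) := by
    rw [← Finset.sum_sub_distrib]
    simp only [map_sub, sub_mul]
  rw [e, ← sub_add]
  exact (norm_add_le _ _).trans (by linarith [h2.trans hb])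

end Vale.Agent.P095.Rel
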