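import Vale.Agent.P101.Lit.Flip.Main
import Vale.Agent.P101.Lit.Transfer.Map

/-!
P095, nonunital algebras: the approximate half flip of a stage is joined to `1` by unitaries of the
double stage.
-/

namespace Vale.Agent.P095.Rel

open scoped unitInterval ComplexOrder
open Vale.Agent.P101.Lit Vale.Agent.P101.Lit.HalfFlip

section Abstract

variable {M A : Type*} [CStarAlgebra M] [CStarAlgebra A] {E G : M →⋆ₐ[ℂ] A} {S S' : A}
  {L R : Set M}

/-- The second family: it joins `1` to the half flip of the constant flow. -/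
noncomputable def contractFlip (S S' : A) (c s r : ℝ) : A :=
  rot S (c * (nu s r - 1)) * rot S' (c * (mu r * s))

theorem contractFlip_zero (S S' : A) (s r : ℝ) : contractFlip S S' 0 s r = 1 := by
  simp [contractFlip, rot_zero]

theorem contractFlip_one (h : Legs E G S S' L R) (s r : ℝ) :
    contractFlip S S' 1 s r = halfFlip E G S S' (fun _ => 1) s r := by
  have hc : ∀ x y, Commute (rot S x) (rot S' y) := fun x y =>
    commute_rot (commute_rot h.commS.symm y).symm x
  unfold contractFlip halfFlip
  simp only [star_one, map_one, one_mul, mul_one]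
  rw [sub_eq_add_neg, ← rot_mul S h.sq_S, rot_neg_one,
    show mu r * s = mu r + -(mu r * (1 - s)) by ring, ← rot_mul S' h.sq_S']
  have h1 : Commute (rot S (nu s r)) S := commute_rot (Commute.refl S) _
  rw [h1.eq, mul_assoc, ← mul_assoc (rot S (nu s r)) (rot S' (mu r)), (hc _ _).eq, mul_assoc]

theorem contractFlip_mem (h : Legs E G S S' L R) (c s r : ℝ) :
    contractFlip S S' c s r ∈ unitary A :=
  mul_mem (rot_mem S h.star_S h.sq_S _) (rot_mem S' h.star_S' h.sq_S' _)

theorem contractFlip_zero_left (h : Legs E G S S' L R) (c r : ℝ) {b : M} (hb : b ∈ R) :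
    Commute (contractFlip S S' c 0 r) (E b) := by
  simp only [contractFlip, mul_zero, rot_zero, mul_one]
  exact commute_rot (h.S_R b hb).1 _

theorem contractFlip_one_left (h : Legs E G S S' L R) (c : ℝ) {r : ℝ} (hr : r ≤ 1) {a : M}
    (ha : a ∈ L) : Commute (contractFlip S S' c 1 r) (E a) := by
  have h1 : nu 1 r = 1 := max_eq_right (by linarith)
  simp only [contractFlip, h1, sub_self, mul_zero, rot_zero, one_mul]
  exact commute_rot (h.S'_L a ha).1 _

theorem contractFlip_zero_right (h : Legs E G S S' L R) (c s : ℝ) {b : M} (hb : b ∈ R) :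
    Commute (contractFlip S S' c s 0) (G b) := by
  have h0 : mu 0 = 0 := by simp [mu]
  simp only [contractFlip, h0, zero_mul, mul_zero, rot_zero, mul_one]
  exact commute_rot (h.S_R b hb).2 _

theorem contractFlip_one_right (h : Legs E G S S' L R) (c : ℝ) {s : ℝ} (hs : s ≤ 1) {a : M}
    (ha : a ∈ L) : Commute (contractFlip S S' c s 1) (G a) := by
  have h1 : nu s 1 = 1 := max_eq_left (by linarith) |>.trans (by norm_num)
  simp only [contractFlip, h1, sub_self, mul_zero, rot_zero, one_mul]
  exact commute_rot (h.S'_L a ha).2 _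

end Abstract

variable {p q : ℕ}

-- shortcuts: the search for these instances is slow
noncomputable local instance : NonUnitalSemiring (St ℂ p q) := inferInstance
noncomputable local instance : NonUnitalNonAssocSemiring (St ℂ p q) := inferInstance
noncomputable local instance : Semiring (St ℂ p q) := inferInstance
noncomputable local instance : NonAssocSemiring (St ℂ p q) := inferInstance
noncomputable local instance : Ring (St ℂ p q) := inferInstance
noncomputable local instance : Mul (St ℂ p q) := inferInstance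
noncomputable local instance : One (St ℂ p q) := inferInstance
noncomputable local instance : Zero (St ℂ p q) := inferInstance
noncomputable local instance : Add (St ℂ p q) := inferInstance
noncomputable local instance : Sub (St ℂ p q) := inferInstance
noncomputable local instance : AddCommMonoid (St ℂ p q) := inferInstance
noncomputable local instance : Star (St ℂ p q) := inferInstance
noncomputable local instance : StarRing (St ℂ p q) := inferInstance
noncomputable local instance : StarMul (St ℂ p q) := inferInstance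
noncomputable local instance : Monoid (St ℂ p q) := inferInstance
noncomputable local instance : Algebra ℂ (St ℂ p q) := inferInstance
noncomputable local instance : SMul ℂ (St ℂ p q) := inferInstance
noncomputable local instance : NormedRing (St ℂ p q) := inferInstance
noncomputable local instance : Norm (St ℂ p q) := inferInstance
noncomputable local instance : TopologicalSpace (St ℂ p q) := inferInstance

variable [PartialOrder (St ℂ p q)] [StarOrderedRing (St ℂ p q)]

noncomputable local instance : NonUnitalSemiring (St (St ℂ p q) p q) := inferInstance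
noncomputable local instance : NonUnitalNonAssocSemiring (St (St ℂ p q) p q) := inferInstance
noncomputable local instance : Semiring (St (St ℂ p q) p q) := inferInstance
noncomputable local instance : NonAssocSemiring (St (St ℂ p q) p q) := inferInstance
noncomputable local instance : Ring (St (St ℂ p q) p q) := inferInstance
noncomputable local instance : Mul (St (St ℂ p q) p q) := inferInstance
noncomputable local instance : One (St (St ℂ p q) p q) := inferInstance
noncomputable local instance : Zero (St (St ℂ p q) p q) := inferInstance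
noncomputable local instance : Add (St (St ℂ p q) p q) := inferInstance
noncomputable local instance : Sub (St (St ℂ p q) p q) := inferInstance
noncomputable local instance : AddCommMonoid (St (St ℂ p q) p q) := inferInstance
noncomputable local instance : Star (St (St ℂ p q) p q) := inferInstance
noncomputable local instance : StarRing (St (St ℂ p q) p q) := inferInstance
noncomputable local instance : StarMul (St (St ℂ p q) p q) := inferInstance
noncomputable local instance : Monoid (St (St ℂ p q) p q) := inferInstance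
noncomputable local instance : Algebra ℂ (St (St ℂ p q) p q) := inferInstance
noncomputable local instance : SMul ℂ (St (St ℂ p q) p q) := inferInstance
noncomputable local instance : NormedRing (St (St ℂ p q) p q) := inferInstance
noncomputable local instance : Norm (St (St ℂ p q) p q) := inferInstance
noncomputable local instance : TopologicalSpace (St (St ℂ p q) p q) := inferInstance

set_option maxHeartbeats 800000 in
-- the instances of the double stage are expensive to unify
/-- A family of unitaries with the boundary conditions gives a path in the double stage. -/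
theorem exists_path_of_family (Wf : C(I × (I × I), Mat2 p q))
    (hU : ∀ z, Wf z ∈ unitary (Mat2 p q))
    (h₁ : ∀ c t a b, IsLeftEnd p q fun x y => Wf (c, 0, t) (x, a) (y, b))
    (h₂ : ∀ c t a b, IsRightEnd p q fun x y => Wf (c, 1, t) (x, a) (y, b))
    (h₃ : ∀ c s x y, IsLeftEnd p q fun a b => Wf (c, s, 0) (x, a) (y, b))
    (h₄ : ∀ c s x y, IsRightEnd p q fun a b => Wf (c, s, 1) (x, a) (y, b)) :
    ∃ w₀ w₁ : unitary (St (St ℂ p q) p q), Joined w₀ w₁ ∧
      (∀ z, sqFun (w₀ : St (St ℂ p q) p q) z = Wf (0, z)) ∧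
      ∀ z, sqFun (w₁ : St (St ℂ p q) p q) z = Wf (1, z) := by
  choose w hw using fun c : I => exists_sqHom_eq (Wf.curry c) (h₁ c) (h₂ c) (h₃ c) (h₄ c)
  have hz : ∀ c z, sqFun (w c) z = Wf (c, z) := fun c z => by rw [hw c]; rfl
  have hwU : ∀ c, w c ∈ unitary (St (St ℂ p q) p q) := fun c =>
    mem_unitary_of_sqFun fun z => (hz c z).symm ▸ hU _
  have hiso : Isometry (sqFun : St (St ℂ p q) p q → _) :=
    AddMonoidHomClass.isometry_of_norm (sqHom (p := p) (q := q)) norm_sqFun
  have hwc : Continuous w := hiso.isEmbedding.continuous_iff.2 (by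
    have : (sqFun ∘ w : I → C(I × I, Mat2 p q)) = fun c => Wf.curry c := funext hw
    rw [this]
    exact Wf.curry.continuous)
  refine ⟨⟨w 0, hwU 0⟩, ⟨w 1, hwU 1⟩,
    ⟨{ toFun := fun c => ⟨w c, hwU c⟩
       continuous_toFun := hwc.subtype_mk _
       source' := rfl
       target' := rfl }⟩, hz 0, hz 1⟩

/-- The flip of the flow `x ↦ V (c x)`, as a function of `c` and the point of the square. -/
noncomputable def scaledFlip (V : ℝ → CStarMatrix (Ix p q) (Ix p q) ℂ) (hV : Continuous V) :
    C(I × (I × I), Mat2 p q) :=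
  ⟨fun z => halfFlip (legL (Ix p q)) (legR (Ix p q)) (invMat flipA) (invMat flipB)
    (fun x => V ((z.1 : ℝ) * x)) z.2.1 z.2.2, by
    have hc : ∀ φ : CStarMatrix (Ix p q) (Ix p q) ℂ →⋆ₐ[ℂ] Mat2 p q, Continuous φ :=
      fun φ => continuous_hom φ
    have hE := hc (legL (Ix p q))
    have hG := hc (legR (Ix p q))
    have h1 := continuous_rot (invMat (flipA (a := Fin p) (b := Fin q)))
    have h2 := continuous_rot (invMat (flipB (a := Fin p) (b := Fin q)))
    unfold halfFlip mu nu
    fun_prop⟩

/-- The family contracting the flip of the constant flow. -/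
noncomputable def contractedFlip (p q : ℕ) : C(I × (I × I), Mat2 p q) :=
  ⟨fun z => contractFlip (invMat flipA) (invMat flipB) z.1 z.2.1 z.2.2, by
    have h1 := continuous_rot (invMat (flipA (a := Fin p) (b := Fin q)))
    have h2 := continuous_rot (invMat (flipB (a := Fin p) (b := Fin q)))
    unfold contractFlip mu nu
    fun_prop⟩

theorem exists_path_scaledFlip {V : ℝ → CStarMatrix (Ix p q) (Ix p q) ℂ} (hVc : Continuous V)
    (hVU : ∀ x, V x ∈ unitary (CStarMatrix (Ix p q) (Ix p q) ℂ)) (hV0 : V 0 = 1) :
    ∃ w₀ w₁ : unitary (St (St ℂ p q) p q), Joined w₀ w₁ ∧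
      (∀ z, sqFun (w₀ : St (St ℂ p q) p q) z = scaledFlip V hVc (0, z)) ∧
      ∀ z, sqFun (w₁ : St (St ℂ p q) p q) z = scaledFlip V hVc (1, z) := by
  have hU : ∀ (c : I) (x : ℝ), V ((c : ℝ) * x) ∈ unitary (CStarMatrix (Ix p q) (Ix p q) ℂ) :=
    fun c x => hVU _
  have h0 : ∀ c : I, V ((c : ℝ) * 0) = 1 := fun c => by rw [mul_zero, hV0]
  refine exists_path_of_family (scaledFlip V hVc) (fun z => ?_) (fun c t a b => ?_)
    (fun c t a b => ?_) (fun c s x y => ?_) (fun c s x y => ?_)
  · exact halfFlip_mem (V := fun x => V ((z.1 : ℝ) * x)) legs (hU z.1) z.2.1 z.2.2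
  · exact left_of_commute₁ (X := scaledFlip V hVc (c, 0, t)) (fun y hy =>
      commute_zero_left (V := fun x => V ((c : ℝ) * x)) legs (hU c) (h0 c) hy (t : ℝ)) a b
  · exact right_of_commute₁ (X := scaledFlip V hVc (c, 1, t)) (fun y hy =>
      commute_one_left (V := fun x => V ((c : ℝ) * x)) legs (hU c) hy t.2.2) a b
  · exact left_of_commute₂ (X := scaledFlip V hVc (c, s, 0)) (fun z hz =>
      commute_zero_right (V := fun x => V ((c : ℝ) * x)) legs (h0 c) hz (s : ℝ)) x y
  · exact right_of_commute₂ (X := scaledFlip V hVc (c, s, 1)) (fun z hz =>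
      commute_one_right (V := fun x => V ((c : ℝ) * x)) legs (hU c) hz s.2.2) x y

theorem exists_path_contractedFlip :
    ∃ w₀ w₁ : unitary (St (St ℂ p q) p q), Joined w₀ w₁ ∧
      (∀ z, sqFun (w₀ : St (St ℂ p q) p q) z = contractedFlip p q (0, z)) ∧
      ∀ z, sqFun (w₁ : St (St ℂ p q) p q) z = contractedFlip p q (1, z) :=
  exists_path_of_family (contractedFlip p q) (fun z => contractFlip_mem legs _ _ _)
    (fun c t a b => left_of_commute₁ (fun y hy => contractFlip_zero_left legs _ _ hy) a b)
    (fun c t a b => right_of_commute₁ (fun y hy => contractFlip_one_left legs _ t.2.2 hy) a b)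
    (fun c s x y => left_of_commute₂ (fun z hz => contractFlip_zero_right legs _ _ hz) x y)
    (fun c s x y => right_of_commute₂ (fun z hz => contractFlip_one_right legs _ s.2.2 hz) x y)

theorem scaledFlip_zero {V : ℝ → CStarMatrix (Ix p q) (Ix p q) ℂ} (hVc : Continuous V)
    (hV0 : V 0 = 1) (z : I × I) :
    contractedFlip p q (1, z) = scaledFlip V hVc (0, z) := by
  show contractFlip _ _ (1 : ℝ) z.1 z.2 =
    halfFlip (legL (Ix p q)) _ _ _ (fun x => V ((0 : ℝ) * x)) z.1 z.2
  simp only [zero_mul, hV0]
  exact contractFlip_one legs _ _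

theorem contractedFlip_zero (z : I × I) : contractedFlip p q (0, z) = 1 :=
  contractFlip_zero (invMat flipA) (invMat flipB) (z.1 : ℝ) (z.2 : ℝ)

theorem norm_scaledFlip_conj {G : Set (St ℂ p q)} {ε : ℝ} {u : Amb ℂ p q} (hu : IsFlow G ε u)
    {V : ℝ → CStarMatrix (Ix p q) (Ix p q) ℂ} (hVdef : V = Set.IccExtend (zero_le_one' ℝ) (u : I → _))
    (hVc : Continuous V) {g : St ℂ p q} (hg : g ∈ G) (s t : I) :
    ‖scaledFlip V hVc (1, s, t) * kron₁ ((g : Amb ℂ p q) s) *
      star (scaledFlip V hVc (1, s, t)) - kron₂ ((g : Amb ℂ p q) t)‖ ≤ 4 * ε := by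
  obtain ⟨hu0, huU, huG⟩ := hu
  have hVU : ∀ x, V x ∈ unitary (CStarMatrix (Ix p q) (Ix p q) ℂ) := fun x => by
    rw [hVdef]; exact huU _
  set F := Set.IccExtend (zero_le_one' ℝ) ((g : Amb ℂ p q) : I → _) with hF
  have hval : ∀ x : I, F (x : ℝ) = (g : Amb ℂ p q) x := fun x => Set.IccExtend_val _ _ x
  have hF0 : F 0 = (g : Amb ℂ p q) 0 := Set.IccExtend_left _ _
  have hF1 : F 1 = (g : Amb ℂ p q) 1 := Set.IccExtend_right _ _
  have hflow : ∀ x ∈ Set.Icc (0 : ℝ) 1, ‖F x - V x * F 0 * star (V x)‖ ≤ ε := fun x hx => by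
    have : F x = (g : Amb ℂ p q) ⟨x, hx⟩ := hval ⟨x, hx⟩
    rw [this, hF0, hVdef, Set.IccExtend_of_mem _ _ hx, norm_sub_rev]
    exact huG g hg _
  have key := norm_halfFlip_conj (legs (a := Fin p) (b := Fin q)) hVU
    (hF0 ▸ mem_leftEnd g.2.1) (hF1 ▸ mem_rightEnd g.2.2)
    (hflow s s.2) (hflow t t.2) (hflow 1 (by simp))
  have e : scaledFlip V hVc (1, s, t) =
      halfFlip (legL (Ix p q)) (legR (Ix p q)) (invMat flipA) (invMat flipB) V (s : ℝ) (t : ℝ) :=
    congrFun (congrFun (congrArg (halfFlip (legL (Ix p q)) (legR (Ix p q)) (invMat flipA)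
      (invMat flipB)) (funext fun x => congrArg V (one_mul x))) _) _
  rw [e, kron₁_eq_legL, kron₂_eq_legR, ← hval, ← hval]
  exact key

set_option maxHeartbeats 1000000 in
-- the instances of the double stage are expensive to unify
theorem sqFun_eq_one {w : unitary (St (St ℂ p q) p q)}
    (h : ∀ z, sqFun (w : St (St ℂ p q) p q) z = 1) : w = 1 := by
  refine Subtype.ext (sqFun_injective (ContinuousMap.ext fun z => ?_))
  rw [h z, OneMemClass.coe_one, sqFun_one, ContinuousMap.one_apply]

theorem joined_chain {X : Type*} [TopologicalSpace X] {o a b b' c : X} (e₀ : a = o)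
    (hB : Joined a b) (e₁ : b = b') (hA : Joined b' c) : Joined o c := by
  subst e₀ e₁
  exact hB.trans hA

theorem joined_assemble {V : ℝ → CStarMatrix (Ix p q) (Ix p q) ℂ} (hVc : Continuous V)
    (hV0 : V 0 = 1) {a₀ a₁ b₀ b₁ : unitary (St (St ℂ p q) p q)} (hA : Joined a₀ a₁)
    (ha₀ : ∀ z, sqFun (a₀ : St (St ℂ p q) p q) z = scaledFlip V hVc (0, z))
    (hB : Joined b₀ b₁)
    (hb₀ : ∀ z, sqFun (b₀ : St (St ℂ p q) p q) z = contractedFlip p q (0, z))
    (hb₁ : ∀ z, sqFun (b₁ : St (St ℂ p q) p q) z = contractedFlip p q (1, z)) :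
    Joined 1 a₁ :=
  joined_chain (sqFun_eq_one fun z => (hb₀ z).trans (contractedFlip_zero z)) hB
    (Subtype.ext (sqFun_injective (ContinuousMap.ext fun z =>
      ((hb₁ z).trans (scaledFlip_zero hVc hV0 z)).trans (ha₀ z).symm))) hA

set_option maxHeartbeats 3000000 in
-- the instances of the double stage are expensive to unify
theorem joined_one_of_flow {V : ℝ → CStarMatrix (Ix p q) (Ix p q) ℂ} (hVc : Continuous V)
    (hVU : ∀ x, V x ∈ unitary (CStarMatrix (Ix p q) (Ix p q) ℂ)) (hV0 : V 0 = 1) :
    ∃ w : unitary (St (St ℂ p q) p q), Joined 1 w ∧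
      ∀ z, sqFun (w : St (St ℂ p q) p q) z = scaledFlip V hVc (1, z) :=
  (exists_path_scaledFlip hVc hVU hV0).elim fun _ h => h.elim fun a₁ h =>
    (exists_path_contractedFlip (p := p) (q := q)).elim fun _ h' => h'.elim fun _ h' =>
      ⟨a₁, joined_assemble hVc hV0 h.1 h.2.1 h'.1 h'.2.1 h'.2.2, h.2.2⟩

theorem norm_double_of_scaled {G : Set (St ℂ p q)} {ε : ℝ} (hε : 0 < ε) {u : Amb ℂ p q}
    (hu : IsFlow G ε u) {V : ℝ → CStarMatrix (Ix p q) (Ix p q) ℂ}
    (hVdef : V = Set.IccExtend (zero_le_one' ℝ) (u : I → _)) (hVc : Continuous V)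
    {w : St (St ℂ p q) p q} (hw : ∀ z, sqFun w z = scaledFlip V hVc (1, z)) {g : St ℂ p q}
    (hg : g ∈ G) :
    ‖w * cst (St ℂ p q) p q g * star w - lift (St ℂ p q) p q g‖ ≤ 8 * ε :=
  norm_double_le (by positivity) fun s t => by
    rw [hw (s, t)]
    exact (norm_scaledFlip_conj hu hVdef hVc hg s t).trans (by linarith)

set_option maxHeartbeats 3000000 in
-- the instances of the double stage are expensive to unify
theorem exists_double_flip_joined {G : Set (St ℂ p q)} {ε : ℝ} (hε : 0 < ε) {u : Amb ℂ p q}
    (hu : IsFlow G ε u) :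
    ∃ w : unitary (St (St ℂ p q) p q), Joined 1 w ∧
      ∀ g ∈ G, ‖(w : St (St ℂ p q) p q) * cst (St ℂ p q) p q g * star (w : St (St ℂ p q) p q)
        - lift (St ℂ p q) p q g‖ ≤ 8 * ε :=
  have hVc : Continuous (Set.IccExtend (zero_le_one' ℝ) (u : I → _)) := u.continuous.Icc_extend'
  (joined_one_of_flow hVc (fun _ => hu.2.1 _) ((Set.IccExtend_left _ _).trans hu.1)).elim
    fun w h => ⟨w, h.1, fun _ hg => norm_double_of_scaled hε hu rfl hVc h.2 hg⟩

end Vale.Agent.P095.Rel
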