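import Vale.Agent.P095.Rel.Defs
import Vale.Agent.P095.Rel.FlipPath
import Vale.Agent.P101.Lit.Transfer.Eval
import Vale.Agent.P095.Rel.Transfer.Core

/-!
P095, nonunital algebras: an invariant map of a stage into the central sequence algebra of the
ideal and a flow give unitaries over the unitisation with estimates relative to the ideal.
-/

open Filter Topology BoundedContinuousFunction
open scoped ComplexOrder unitInterval

namespace Vale.Agent.P095.Rel

open Vale.Agent.P101 Vale.Agent.P101.Lit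

variable {B : Type*} [CStarAlgebra B] [PartialOrder B] [StarOrderedRing B] {A : Submodule ℂ B}
  {ω : Ultrafilter ℕ} {p q : ℕ}

section TransferRel

variable [IsUnitisation A] [PartialOrder (centralSeq B ω)] [StarOrderedRing (centralSeq B ω)]
  [PartialOrder (Frel A ω)] [StarOrderedRing (Frel A ω)]
  [PartialOrder (St ℂ p q)] [StarOrderedRing (St ℂ p q)]

/-- Images of stages of the central sequences are dense. -/
theorem denseRange_mapSt_relMk :
    DenseRange (mapSt (relMk : centralSeq B ω →⋆ₐ[ℂ] Frel A ω) :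
      St (centralSeq B ω) p q → St (Frel A ω) p q) := by
  intro x
  refine Metric.mem_closure_iff.2 fun ε hε => ?_
  obtain ⟨m, b, h, hx⟩ := exists_tensor_approx x (half_pos hε)
  choose r hr using fun i => relMk_surjective (A := A) (b i)
  refine ⟨mapSt relMk (∑ i, cst (centralSeq B ω) p q (r i) * lift (centralSeq B ω) p q (h i)),
    ⟨_, rfl⟩, ?_⟩
  rw [dist_eq_norm, mapSt_tensor]
  simp only [hr]
  linarith

theorem tendsto_evalSeq_mul {c : centralSeq B ω} (hc : relMk (A := A) c = 0) {a : B} (ha : a ∈ A) :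
    Tendsto (fun n => evalSeq (A := B) (ω := ω) n c * a) ω (𝓝 0) := by
  have := (relMk_eq_iff (A := A) c 0).1 (hc.trans (map_zero relMk).symm)
  rw [sub_zero] at this
  exact this a ha

theorem exists_lift_relMk (d : Frel A ω) :
    ∃ r : centralSeq B ω, relMk (A := A) r = d ∧ ‖r‖ ≤ ‖d‖ + 1 := by
  obtain ⟨r, hr, hrn⟩ := Submodule.Quotient.norm_mk_lt d one_pos
  exact ⟨r, hr, hrn.le⟩

set_option maxHeartbeats 2000000 in
-- the instances of the stages over the quotient are expensive to unify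
/-- A flow and an invariant map into the central sequence algebra of `A` give unitaries over `B`
with estimates relative to `A`. -/
theorem exists_transfer_rel {H : Type*} {α : H → B ≃⋆ₐ[ℂ] B}
    (hA : ∀ h, ∀ a ∈ A, (α h).symm a ∈ A) (ψ : St ℂ p q →⋆ₐ[ℂ] Frel A ω)
    (hψ : ∀ h x, relAct α hA h (ψ x) = ψ x) {G : Set (St ℂ p q)} (hG : G.Finite) {ε : ℝ}
    (hε : 0 < ε) {u : Amb ℂ p q} (hu : IsFlow G ε u) (F : Finset B) (Fa : Finset B)
    (hFa : ∀ a ∈ Fa, a ∈ A) (K : Finset H) {η : ℝ} (hη : 0 < η) :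
    ∃ v ∈ unitary (St B p q),
      (∀ a ∈ F, ‖v * cst B p q a - cst B p q a * v‖ ≤ η) ∧
      (∀ h ∈ K, ∀ a ∈ Fa,
        ‖(mapSt (autHom α h) (star v) - star v) * cst B p q a‖ ≤ η) ∧
      ∀ g ∈ G, ∃ c : B, ‖c‖ ≤ ‖g‖ + 1 ∧ ∀ a ∈ Fa,
        ‖(lift B p q g - v * cst B p q c * star v) * cst B p q a‖ ≤ 8 * ε * ‖a‖ + η :=
  (exists_double_flip_joined hε hu).elim fun _ h =>
    transfer_core_rel (relMk : centralSeq B ω →⋆ₐ[ℂ] Frel A ω) (fun n => evalSeq n)
      (fun _ hc _ ha => tendsto_evalSeq_mul hc ha) (fun c a => c.2 a) (autHom α)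
      (centralMap α) (relAct α hA) (fun h c => (relAct_mk α hA h c).symm) (fun _ _ _ => rfl)
      exists_lift_relMk denseRange_mapSt_relMk ψ hψ h.1 hG id (fun _ => le_rfl) h.2 F Fa hFa K hη

end TransferRel

end Vale.Agent.P095.Rel
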