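import Vale.Agent.P095.Rel.Defs
import Vale.Agent.P095.Rel.Stage
import Vale.Agent.P095.Rel.Transfer
import Vale.Agent.P101.Lit.Approx.Sum
import Vale.Agent.P101.Lit.Intertwine.Limit
import Vale.Agent.P101.Lit.Model.Flow

/-!
P095, nonunital algebras: stage elements of the ideal are absorbed into the ideal by unitaries
which almost commute with it and are almost invariant on it.
-/

open Filter Topology
open scoped ComplexOrder unitInterval

namespace Vale.Agent.P095.Rel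

open Vale.Agent.P101 Vale.Agent.P101.Lit

variable {B : Type*} [CStarAlgebra B] [PartialOrder B] [StarOrderedRing B] {A : Submodule ℂ B}
  [IsUnitisation A] {ω : Ultrafilter ℕ} {G : Type*} {α : G → B ≃⋆ₐ[ℂ] B}

/-- The absorption property relative to `A`. -/
def AbsorbsRel (A : Submodule ℂ B) (α : G → B ≃⋆ₐ[ℂ] B) : Prop :=
  ∀ k (F : Finset B) (X : Finset (St B (pp k) (qq k))) (K : Finset G) (ε : ℝ), 0 < ε →
    (∀ a ∈ F, a ∈ A) → (∀ b ∈ X, b ∈ StI A (pp k) (qq k)) →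
    ∃ m, ∃ h : k ≤ m, ∃ v ∈ unitary (St B (pp m) (qq m)),
      (∀ g ∈ K, ∀ b ∈ X,
        ‖(P101.Lit.mapSt (autHom α g) (star v) - star v) * conn h b‖ ≤ ε) ∧
      (∀ a ∈ F, ‖v * cst B _ _ a - cst B _ _ a * v‖ ≤ ε) ∧
      ∀ b ∈ X, ∃ a ∈ A, ‖star v * conn h b * v - cst B _ _ a‖ ≤ ε

section Est

variable {S : Type*} [CStarAlgebra S]

/-- Left factor with small products against the coefficients. -/
theorem norm_mul_sum_le {ι : Type*} [Fintype ι] {D y : S} {b l : ι → S} {η δ : ℝ}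
    (hy : ‖y - ∑ i, b i * l i‖ ≤ η) (hD : ‖D‖ ≤ 2) (h : ∀ i, ‖D * b i‖ ≤ δ) :
    ‖D * y‖ ≤ 2 * η + δ * ∑ i, ‖l i‖ := by
  have hη : 0 ≤ η := (norm_nonneg _).trans hy
  have e : D * y = D * (y - ∑ i, b i * l i) + ∑ i, D * b i * l i := by
    simp only [mul_sub, Finset.mul_sum, mul_assoc, sub_add_cancel]
  rw [e, Finset.mul_sum]
  refine (norm_add_le _ _).trans (add_le_add ((norm_mul_le _ _).trans (mul_le_mul hD hy
    (norm_nonneg _) zero_le_two)) ((norm_sum_le _ _).trans (Finset.sum_le_sum fun i _ =>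
      (norm_mul_le _ _).trans (mul_le_mul_of_nonneg_right (h i) (norm_nonneg _)))))

/-- Absorbing a sum of tensors. -/
theorem norm_conj_sum_le {ι : Type*} [Fintype ι] {v y : S} (hv : v ∈ unitary S) {b l c : ι → S}
    {η : ℝ} {e : ι → ℝ} (hy : ‖y - ∑ i, b i * l i‖ ≤ η) (hbl : ∀ i, Commute (b i) (l i))
    (h : ∀ i, ‖(l i - v * c i * star v) * b i‖ + ‖c i‖ * ‖v * b i - b i * v‖ ≤ e i) :
    ‖star v * y * v - ∑ i, c i * b i‖ ≤ η + ∑ i, e i := by
  have hc : ∀ i, ‖b i * l i - v * (c i * b i) * star v‖ ≤ e i := fun i => by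
    refine le_trans ?_ (h i)
    have e' : b i * l i - v * (c i * b i) * star v =
        (l i - v * c i * star v) * b i + v * c i * (star v * b i - b i * star v) := by
      rw [(hbl i).eq]; noncomm_ring
    rw [e']
    refine (norm_add_le _ _).trans (add_le_add le_rfl ((norm_mul_le _ _).trans ?_))
    have hc' : star v * b i - b i * star v = star v * (b i * v - v * b i) * star v := by
      simp only [mul_sub, sub_mul, mul_assoc, Unitary.mul_star_self_of_mem hv, mul_one]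
      rw [← mul_assoc (star v) v, Unitary.star_mul_self_of_mem hv, one_mul]
    rw [CStarRing.norm_mem_unitary_mul _ hv, hc',
      CStarRing.norm_mul_mem_unitary _ (Unitary.star_mem hv),
      CStarRing.norm_mem_unitary_mul _ (Unitary.star_mem hv), norm_sub_rev]
  have e1 := ApproxAux.sum_le (v := v) hy hc
  rwa [← P101.Lit.Intertwine.norm_conj hv, mul_sub (star v), sub_mul _ _ v,
    P101.Lit.Intertwine.conj_conj' hv] at e1

end Est

section Tensor

variable {k n : ℕ} {y : St B (pp k) (qq k)} {N : ℕ} {b : Fin N → B}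
  {h : Fin N → St ℂ (pp k) (qq k)} {v : St B (pp (k + n)) (qq (k + n))} {ε δ M : ℝ}
  (hv : v ∈ unitary (St B (pp (k + n)) (qq (k + n))))
  (hxh : ‖y - ∑ l, cst B _ _ (b l) * lift B _ _ (h l)‖ ≤ ε / 4)
  (hM : ∑ l, (8 * ‖b l‖ + 2 * ‖h l‖ + 2) ≤ M)

omit [IsUnitisation A] in
include hxh in
theorem norm_conn_sub_tensor : ‖conn (Nat.le_add_right k n) y -
    ∑ l, cst B _ _ (b l) * lift B _ _ (push ℂ k n (h l))‖ ≤ ε / 4 := by
  have e : ∑ l, cst B _ _ (b l) * lift B _ _ (push ℂ k n (h l)) =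
      push B k n (∑ l, cst B _ _ (b l) * lift B _ _ (h l)) := by
    simp only [map_sum, map_mul, push_cst, push_lift]
  rw [e, conn_push, ← map_sub, norm_push]
  exact hxh

omit [IsUnitisation A] in
theorem norm_lift_push_le (g : St ℂ (pp k) (qq k)) :
    ‖lift B (pp (k + n)) (qq (k + n)) (push ℂ k n g)‖ ≤ ‖g‖ :=
  (NonUnitalStarAlgHom.norm_apply_le _ _).trans (norm_push k n g).le

set_option maxHeartbeats 1000000 in
-- the instances of the stages are expensive to unify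
omit [IsUnitisation A] in
include hv hxh hM in
theorem invariant_of_tensor (hδ0 : 0 < δ) (hδM : δ * M ≤ ε / 4) (hε : 0 < ε) (f : B →⋆ₐ[ℂ] B)
    (hb : ∀ l, ‖(mapSt f (star v) - star v) * cst B _ _ (b l)‖ ≤ δ) :
    ‖(mapSt f (star v) - star v) * conn (Nat.le_add_right k n) y‖ ≤ ε := by
  have hD : ‖mapSt f (star v) - star v‖ ≤ 2 := by
    have h1 := NonUnitalStarAlgHom.norm_apply_le
      (mapSt (p := pp (k + n)) (q := qq (k + n)) f) (star v)
    have h2 := norm_le_one_of_unitary (Unitary.star_mem hv)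
    linarith [norm_sub_le (mapSt f (star v)) (star v)]
  refine (norm_mul_sum_le (norm_conn_sub_tensor hxh) hD hb).trans ?_
  have h1 : ∑ l, ‖lift B (pp (k + n)) (qq (k + n)) (push ℂ k n (h l))‖ ≤ M :=
    (Finset.sum_le_sum fun l _ => (norm_lift_push_le (h l)).trans (by
      linarith [norm_nonneg (b l), norm_nonneg (h l)])).trans hM
  linarith [mul_le_mul_of_nonneg_left h1 hδ0.le]

set_option maxHeartbeats 1000000 in
-- the instances of the stages are expensive to unify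
include hv hxh hM in
theorem absorb_of_tensor (hbA : ∀ l, b l ∈ A) (hδ0 : 0 < δ) (hδM : δ * M ≤ ε / 4) (hε : 0 < ε)
    (hcomm : ∀ l, ‖v * cst B _ _ (b l) - cst B _ _ (b l) * v‖ ≤ δ)
    (hc : ∀ l, ∃ c : B, ‖c‖ ≤ ‖push ℂ k n (h l)‖ + 1 ∧
      ‖(lift B _ _ (push ℂ k n (h l)) - v * cst B _ _ c * star v) * cst B _ _ (b l)‖ ≤
        8 * δ * ‖b l‖ + δ) :
    ∃ a ∈ A, ‖star v * conn (Nat.le_add_right k n) y * v - cst B _ _ a‖ ≤ ε := by
  choose c hcn hc using hc
  refine ⟨∑ l, c l * b l, sum_mem fun l _ => (IsUnitisation.bimod _ _ (hbA l)).1, ?_⟩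
  rw [show cst B (pp (k + n)) (qq (k + n)) (∑ l, c l * b l) =
    ∑ l, cst B _ _ (c l) * cst B _ _ (b l) by simp only [map_sum, map_mul]]
  refine (norm_conj_sum_le hv (e := fun l => δ * (8 * ‖b l‖ + 2 * ‖h l‖ + 2))
    (norm_conn_sub_tensor hxh) (fun l => commute_cst_lift _ _) fun l => ?_).trans ?_
  · have h3 : ‖cst B (pp (k + n)) (qq (k + n)) (c l)‖ ≤ ‖h l‖ + 1 :=
      (NonUnitalStarAlgHom.norm_apply_le _ _).trans
        ((hcn l).trans (add_le_add (norm_push k n (h l)).le le_rfl))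
    have h4 := mul_le_mul h3 (hcomm l) (norm_nonneg _) (by positivity)
    nlinarith [hc l, norm_nonneg (h l), mul_nonneg hδ0.le (norm_nonneg (h l))]
  · rw [← Finset.mul_sum]
    linarith [mul_le_mul_of_nonneg_left hM hδ0.le]

end Tensor

variable [PartialOrder (centralSeq B ω)] [StarOrderedRing (centralSeq B ω)]
  [PartialOrder (Frel A ω)] [StarOrderedRing (Frel A ω)]

set_option maxHeartbeats 1000000 in
-- the instances of the stages are expensive to unify
theorem absorbsRel_of_homs (hA : ∀ g, ∀ a ∈ A, (α g).symm a ∈ A)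
    (hψ : ∀ i, ∃ ψ : St ℂ (pp i) (qq i) →⋆ₐ[ℂ] Frel A ω, ∀ g x, relAct α hA g (ψ x) = ψ x) :
    AbsorbsRel A α := by
  classical
  intro k F X K ε hε hF hX
  choose N b h hbA hxh using fun x : {x // x ∈ StI A (pp k) (qq k)} =>
    exists_tensor_approx_StI x.2 (show (0 : ℝ) < ε / 4 by positivity)
  let X' : Finset {x // x ∈ StI A (pp k) (qq k)} :=
    X.attach.image fun x => ⟨x.1, hX x.1 x.2⟩
  set G₀ : Finset (St ℂ (pp k) (qq k)) := X'.biUnion fun x => Finset.univ.image (h x) with hG₀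
  set Fa : Finset B := X'.biUnion fun x => Finset.univ.image (b x) with hFa
  have hFaA : ∀ a ∈ Fa, a ∈ A := by
    intro a ha
    obtain ⟨x, -, hx⟩ := Finset.mem_biUnion.1 ha
    obtain ⟨l, -, rfl⟩ := Finset.mem_image.1 hx
    exact hbA x l
  have hnn : ∀ x l, 0 ≤ 8 * ‖b x l‖ + 2 * ‖h x l‖ + 2 := fun x l => by positivity
  obtain ⟨M, hM1, hM⟩ : ∃ M : ℝ, 1 ≤ M ∧
      ∀ x ∈ X', ∑ l, (8 * ‖b x l‖ + 2 * ‖h x l‖ + 2) ≤ M := by
    refine ⟨1 + ∑ x ∈ X', ∑ l, (8 * ‖b x l‖ + 2 * ‖h x l‖ + 2), le_add_of_nonneg_right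
      (Finset.sum_nonneg fun y _ => Finset.sum_nonneg fun l _ => hnn y l), fun x hx => ?_⟩
    linarith [Finset.single_le_sum (f := fun x => ∑ l, (8 * ‖b x l‖ + 2 * ‖h x l‖ + 2))
      (fun y _ => Finset.sum_nonneg fun l _ => hnn y l) hx]
  obtain ⟨δ, hδ0, hδε, hδM⟩ : ∃ δ : ℝ, 0 < δ ∧ δ ≤ ε ∧ δ * M ≤ ε / 4 :=
    ⟨ε / (4 * M), by positivity, div_le_self hε.le (by linarith), le_of_eq (by field_simp)⟩
  obtain ⟨n, -, u, hu⟩ := exists_flow k G₀ hδ0
  obtain ⟨ψ, hψinv⟩ := hψ (k + n)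
  let _ : PartialOrder (St ℂ (pp (k + n)) (qq (k + n))) := CStarAlgebra.spectralOrder _
  have : StarOrderedRing (St ℂ (pp (k + n)) (qq (k + n))) := CStarAlgebra.spectralOrderedRing _
  obtain ⟨v, hv, hvF, hvK, hvG⟩ := exists_transfer_rel hA ψ hψinv (G₀.finite_toSet.image _) hδ0 hu
    (F ∪ Fa) Fa hFaA K hδ0
  refine ⟨k + n, Nat.le_add_right k n, v, hv, ?_,
    fun a ha => (hvF a (Finset.mem_union_left _ ha)).trans hδε, ?_⟩
  · intro g hg y hy
    set x : {x // x ∈ StI A (pp k) (qq k)} := ⟨y, hX y hy⟩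
    have hx : x ∈ X' := Finset.mem_image.2 ⟨⟨y, hy⟩, Finset.mem_attach _ _, rfl⟩
    exact invariant_of_tensor hv (hxh x) (hM x hx) hδ0 hδM hε (autHom α g)
      fun l => hvK g hg _ (Finset.mem_biUnion.2
        ⟨x, hx, Finset.mem_image.2 ⟨l, Finset.mem_univ _, rfl⟩⟩)
  · intro y hy
    set x : {x // x ∈ StI A (pp k) (qq k)} := ⟨y, hX y hy⟩
    have hx : x ∈ X' := Finset.mem_image.2 ⟨⟨y, hy⟩, Finset.mem_attach _ _, rfl⟩
    have hbmem : ∀ l, b x l ∈ Fa := fun l => Finset.mem_biUnion.2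
      ⟨x, hx, Finset.mem_image.2 ⟨l, Finset.mem_univ _, rfl⟩⟩
    have hg : ∀ l, push ℂ k n (h x l) ∈ push ℂ k n '' (G₀ : Set (St ℂ (pp k) (qq k))) :=
      fun l => ⟨h x l, Finset.mem_biUnion.2
        ⟨x, hx, Finset.mem_image.2 ⟨l, Finset.mem_univ _, rfl⟩⟩, rfl⟩
    exact absorb_of_tensor hv (hxh x) (hM x hx) (hbA x) hδ0 hδM hε
      (fun l => hvF _ (Finset.mem_union_right _ (hbmem l)))
      fun l => (hvG _ (hg l)).elim fun c hc => ⟨c, hc.1, hc.2 _ (hbmem l)⟩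

end Vale.Agent.P095.Rel
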