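import Vale.Agent.P095.SI.Defs

/-! P095, nonunital algebras: the standing hypotheses on an ideal of a unital algebra. -/

open scoped ComplexOrder

namespace Vale.Agent.P095.Rel

variable {B : Type*} [CStarAlgebra B] (A : Submodule ℂ B)

/-- Standing hypotheses on the ideal: `B` is spanned by `1` and the closed star ideal `A`. -/
class IsUnitisation : Prop where
  closed : IsClosed (A : Set B)
  bimod : SI.IsBimod A
  star_mem : ∀ a ∈ A, star a ∈ A
  span : ∀ b : B, ∃ r : ℂ, b - r • (1 : B) ∈ A

end Vale.Agent.P095.Rel
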