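import Vale.Agent.P101.Fomega.Main
import Vale.Agent.P095.Action
import Vale.Agent.P095.SI.Defs
import Vale.Agent.P095.Rel.Unitisation

/-!
P095, nonunital algebras: the central sequence algebra of an ideal `A` inside a unital algebra `B`,
as the quotient of the central sequences of `B` by those which vanish on `A`.
-/

open Filter Topology BoundedContinuousFunction
open scoped ComplexOrder

namespace Vale.Agent.P095.Rel

open Vale.Agent.P101

variable {B : Type*} [CStarAlgebra B] (A : Submodule ℂ B) (ω : Ultrafilter ℕ)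

/-- A bounded sequence vanishing on `A` from the right. -/
def IsRelNull (x : ℕ →ᵇ B) : Prop := ∀ a ∈ A, Tendsto (fun n => x n * a) ω (𝓝 0)

variable {A ω}

theorem tendsto_zero_mul_bdd {u : ℕ → B} (hu : Tendsto u ω (𝓝 0)) (y : ℕ →ᵇ B) :
    Tendsto (fun n => u n * y n) ω (𝓝 0) :=
  squeeze_zero_norm (fun n => (norm_mul_le _ _).trans
    (mul_le_mul_of_nonneg_left (y.norm_coe_le_norm n) (norm_nonneg _)))
    (by simpa using hu.norm.mul_const ‖y‖)

theorem tendsto_bdd_mul_zero {u : ℕ → B} (hu : Tendsto u ω (𝓝 0)) (y : ℕ →ᵇ B) :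
    Tendsto (fun n => y n * u n) ω (𝓝 0) :=
  squeeze_zero_norm (fun n => (norm_mul_le _ _).trans
    (mul_le_mul_of_nonneg_right (y.norm_coe_le_norm n) (norm_nonneg _)))
    (by simpa using hu.norm.const_mul ‖y‖)

variable (A ω)

/-- The central sequences vanishing on `A`. -/
noncomputable def relNull : Ideal (centralSeq B ω) where
  carrier := {x | IsRelNull A ω (x : ℕ →ᵇ B)}
  add_mem' {x y} hx hy a ha := by simpa [add_mul] using (hx a ha).add (hy a ha)
  zero_mem' a _ := by simp
  smul_mem' c x hx a ha := by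
    simpa [mul_assoc] using tendsto_bdd_mul_zero (hx a ha) (c : ℕ →ᵇ B)

instance relNull_isTwoSided : (relNull A ω).IsTwoSided := ⟨fun {x} b hx a ha => by
  have h1 := tendsto_bdd_mul_zero (ω := ω) (b.2 a) (x : ℕ →ᵇ B)
  have h2 := tendsto_zero_mul_bdd (hx a ha) (b : ℕ →ᵇ B)
  have h := h1.add h2
  rw [add_zero] at h
  refine h.congr fun n => ?_
  simp only [MulMemClass.coe_mul, BoundedContinuousFunction.mul_apply]
  noncomm_ring⟩

/-- The central sequence algebra of `A`. -/
abbrev Frel := centralSeq B ω ⧸ relNull A ω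

instance isClosed_relNull : IsClosed (relNull A ω : Set (centralSeq B ω)) := by
  refine isClosed_of_closure_subset fun x hx a ha => ?_
  rw [Metric.tendsto_nhds]
  intro ε hε
  obtain ⟨y, hy, hxy⟩ := Metric.mem_closure_iff.1 hx (ε / (2 * (‖a‖ + 1))) (by positivity)
  filter_upwards [Metric.tendsto_nhds.1 (hy a ha) (ε / 2) (half_pos hε)] with n hn
  rw [dist_zero_right] at hn ⊢
  rw [dist_eq_norm] at hxy
  have h1 : ‖(x : ℕ →ᵇ B) n - (y : ℕ →ᵇ B) n‖ ≤ ε / (2 * (‖a‖ + 1)) :=
    (((x - y : centralSeq B ω) : ℕ →ᵇ B).norm_coe_le_norm n).trans hxy.le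
  have h2 : ‖((x : ℕ →ᵇ B) n - (y : ℕ →ᵇ B) n) * a‖ ≤ ε / 2 :=
    calc _ ≤ ε / (2 * (‖a‖ + 1)) * (‖a‖ + 1) :=
          (norm_mul_le _ _).trans (mul_le_mul h1 (by linarith) (norm_nonneg _) (by positivity))
      _ = ε / 2 := by field_simp
  rw [sub_mul] at h2
  linarith [norm_le_norm_add_norm_sub' ((x : ℕ →ᵇ B) n * a) ((y : ℕ →ᵇ B) n * a)]

variable [IsUnitisation A]

variable {A ω} in
theorem star_mem_relNull {x : centralSeq B ω} (hx : x ∈ relNull A ω) :
    star x ∈ relNull A ω := fun a ha => by
  have h1 := (star x : centralSeq B ω).2 a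
  have h3 := (hx (star a) (IsUnitisation.star_mem a ha)).star
  rw [star_zero] at h3
  have h4 := h1.add h3
  rw [add_zero] at h4
  refine h4.congr fun n => ?_
  simp only [StarMemClass.coe_star, BoundedContinuousFunction.star_apply, star_mul,
    star_star]
  abel

noncomputable instance instStarFrel : Star (Frel A ω) where
  star := Quotient.map' star fun a b hab => by
    rw [Submodule.quotientRel_def] at hab ⊢
    rw [← star_sub]
    exact star_mem_relNull hab

variable {A ω}

theorem star_mk (x : centralSeq B ω) :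
    star (Ideal.Quotient.mk (relNull A ω) x) = Ideal.Quotient.mk (relNull A ω) (star x) :=
  rfl

omit [IsUnitisation A] in
theorem norm_frel_mul_le (x y : Frel A ω) : ‖x * y‖ ≤ ‖x‖ * ‖y‖ := by
  refine le_of_forall_pos_le_add fun ε hε => ?_
  set η := min 1 (ε / (‖x‖ + ‖y‖ + 1)) with hη
  have hη0 : 0 < η := lt_min one_pos (by positivity)
  obtain ⟨a, rfl, ha⟩ := Submodule.Quotient.norm_mk_lt x hη0
  obtain ⟨b, rfl, hb⟩ := Submodule.Quotient.norm_mk_lt y hη0
  refine ((Submodule.Quotient.norm_mk_le (relNull A ω) (a * b)).trans (norm_mul_le a b)).trans ?_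
  refine (mul_le_mul ha.le hb.le (norm_nonneg _) (by positivity)).trans ?_
  set X := ‖(Submodule.Quotient.mk a : Frel A ω)‖
  set Y := ‖(Submodule.Quotient.mk b : Frel A ω)‖
  have hX : 0 ≤ X := norm_nonneg _
  have hY : 0 ≤ Y := norm_nonneg _
  have h1 : η * (X + Y + 1) ≤ ε := (le_div_iff₀ (by positivity)).1 (min_le_right _ _)
  nlinarith [min_le_left 1 (ε / (X + Y + 1))]

omit [IsUnitisation A] in
/-- An element of an ideal of a C*-algebra is almost fixed by some `1 - h` in the ideal. -/
theorem exists_damp {R : Type*} [CStarAlgebra R] (J : Ideal R) [J.IsTwoSided] {j : R} (hj : j ∈ J)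
    {ε : ℝ} (hε : 0 < ε) :
    ∃ h : R, IsSelfAdjoint h ∧ ‖h‖ ≤ 1 ∧ 1 - h ∈ J ∧ ‖j * h‖ ≤ ε := by
  let _ : PartialOrder R := CStarAlgebra.spectralOrder _
  have : StarOrderedRing R := CStarAlgebra.spectralOrderedRing _
  obtain ⟨δ, hδdef⟩ : ∃ δ : ℝ, δ = ε ^ 2 := ⟨_, rfl⟩
  have hδ : 0 < δ := by rw [hδdef]; positivity
  set T := star j * j with hT
  have hTsa : IsSelfAdjoint T := IsSelfAdjoint.star_mul_self j
  set f : ℝ → ℝ := fun t => δ / (max t 0 + δ) with hf
  set g : ℝ → ℝ := fun t => 1 / (max t 0 + δ) with hg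
  have hpos : ∀ t : ℝ, 0 < max t 0 + δ := fun t => by linarith [le_max_right t 0]
  have hfc : Continuous f := continuous_const.div (by fun_prop) fun t => (hpos t).ne'
  have hgc : Continuous g := continuous_const.div (by fun_prop) fun t => (hpos t).ne'
  have hsp : ∀ t ∈ spectrum ℝ T, 0 ≤ t := fun t ht =>
    spectrum_nonneg_of_nonneg (star_mul_self_nonneg j) ht
  set h := cfc f T with hh
  refine ⟨h, cfc_predicate f T, norm_cfc_le (by norm_num) fun t _ => ?_, ?_, ?_⟩
  · rw [hf, Real.norm_of_nonneg (div_nonneg hδ.le (hpos t).le), div_le_one (hpos t)]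
    linarith [le_max_right t 0]
  · have e : (1 : R) - h = T * cfc g T := by
      rw [hh, ← cfc_one ℝ T, ← cfc_sub _ f T (by fun_prop) hfc.continuousOn]
      conv_rhs => arg 1; rw [← cfc_id ℝ T]
      rw [← cfc_mul id g T (by fun_prop) hgc.continuousOn]
      refine cfc_congr fun t ht => ?_
      simp only [hf, hg, id, Pi.one_apply, max_eq_left (hsp t ht)]
      field_simp [show (t + δ) ≠ 0 by linarith [hsp t ht]]
      ring
    rw [e, hT, mul_assoc]
    exact J.mul_mem_left _ (J.mul_mem_right _ hj)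
  · have e : star (j * h) * (j * h) = cfc (fun t => f t * t * f t) T := by
      rw [cfc_mul _ f T (by fun_prop) hfc.continuousOn,
        cfc_mul f (fun t => t) T hfc.continuousOn (by fun_prop), cfc_id' ℝ T, ← hh, star_mul,
        (cfc_predicate f T : IsSelfAdjoint h).star_eq, hT]
      simp only [mul_assoc, hh, hT]
    refine (pow_le_pow_iff_left₀ (norm_nonneg _) hε.le two_ne_zero).1 ?_
    rw [sq, ← CStarRing.norm_star_mul_self, e, ← hδdef]
    refine norm_cfc_le hδ.le fun t ht => ?_
    have h0 := hsp t ht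
    have hft : f t = δ / (t + δ) := by simp only [hf, max_eq_left h0]
    rw [Real.norm_of_nonneg (by rw [hft]; positivity), hft, div_mul_eq_mul_div, div_mul_div_comm,
      div_le_iff₀ (by positivity)]
    have h1 := mul_nonneg hδ.le (mul_self_nonneg t)
    have h2 := mul_nonneg (mul_nonneg hδ.le hδ.le) h0
    have h3 : 0 ≤ δ * δ * δ := by positivity
    nlinarith

noncomputable instance instStarRingFrel : StarRing (Frel A ω) where
  star_involutive x := by
    obtain ⟨a, rfl⟩ := Ideal.Quotient.mk_surjective x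
    rw [star_mk, star_mk, star_star]
  star_mul x y := by
    obtain ⟨a, rfl⟩ := Ideal.Quotient.mk_surjective x
    obtain ⟨b, rfl⟩ := Ideal.Quotient.mk_surjective y
    rw [← map_mul, star_mk, star_mk, star_mk, star_mul, map_mul]
  star_add x y := by
    obtain ⟨a, rfl⟩ := Ideal.Quotient.mk_surjective x
    obtain ⟨b, rfl⟩ := Ideal.Quotient.mk_surjective y
    rw [← map_add, star_mk, star_mk, star_mk, star_add, map_add]

noncomputable instance instNormedRingFrel : NormedRing (Frel A ω) :=
  { Submodule.Quotient.normedAddCommGroup (relNull A ω),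
    (inferInstance : Ring (Frel A ω)) with
    dist_eq := dist_eq_norm_neg_add
    norm_mul_le := norm_frel_mul_le }

instance instCompleteSpaceFrel : CompleteSpace (Frel A ω) :=
  Submodule.Quotient.completeSpace _

instance instCStarRingFrel : CStarRing (Frel A ω) where
  norm_mul_self_le x := by
    obtain ⟨a, rfl⟩ := Ideal.Quotient.mk_surjective x
    rw [star_mk, ← map_mul]
    set X := ‖Ideal.Quotient.mk (relNull A ω) a‖
    refine le_of_forall_pos_le_add fun ε hε => ?_
    obtain ⟨z, hz, hzn⟩ := Submodule.Quotient.norm_mk_lt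
      (Ideal.Quotient.mk (relNull A ω) (star a * a)) (half_pos hε)
    have hj : z - star a * a ∈ relNull A ω := Ideal.Quotient.eq.1 hz
    obtain ⟨h, hsa, hn, hmem, hjh⟩ := exists_damp (relNull A ω) hj (half_pos hε)
    have hX : X ≤ ‖a * h‖ := by
      have : Ideal.Quotient.mk (relNull A ω) a = Ideal.Quotient.mk (relNull A ω) (a * h) :=
        Ideal.Quotient.eq.2 (by
          rw [← mul_one_sub]
          exact (relNull A ω).mul_mem_left _ hmem)
      simp only [X, this]
      exact Submodule.Quotient.norm_mk_le (relNull A ω) _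
    have e : star (a * h) * (a * h) = star h * z * h - star h * ((z - star a * a) * h) := by
      rw [star_mul]; noncomm_ring
    calc X * X ≤ ‖a * h‖ * ‖a * h‖ := mul_self_le_mul_self (norm_nonneg _) hX
      _ = ‖star (a * h) * (a * h)‖ := CStarRing.norm_star_mul_self.symm
      _ ≤ ‖z‖ + ε / 2 := by
          have hs : ‖star h‖ ≤ 1 := (norm_star h).trans_le hn
          rw [e]
          refine (norm_sub_le _ _).trans (add_le_add ?_ ?_)
          · calc ‖star h * z * h‖ ≤ ‖star h‖ * ‖z‖ * ‖h‖ := norm_mul₃_le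
              _ ≤ 1 * ‖z‖ * 1 := by gcongr
              _ = ‖z‖ := by ring
          · calc ‖star h * ((z - star a * a) * h)‖ ≤ ‖star h‖ * ‖(z - star a * a) * h‖ :=
                  norm_mul_le _ _
              _ ≤ 1 * (ε / 2) := by gcongr
              _ = ε / 2 := one_mul _
      _ ≤ _ := by linarith

noncomputable instance instAlgebraFrel : Algebra ℂ (Frel A ω) :=
  Ideal.Quotient.algebra ℂ

noncomputable instance instNormedAlgebraFrel : NormedAlgebra ℂ (Frel A ω) where
  __ := instAlgebraFrel
  norm_smul_le c x := by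
    have := Submodule.Quotient.normedSpace (relNull A ω) ℂ
    exact norm_smul_le c x

instance instStarModuleFrel : StarModule ℂ (Frel A ω) where
  star_smul c x := by
    obtain ⟨a, rfl⟩ := Ideal.Quotient.mk_surjective x
    change star (Ideal.Quotient.mk (relNull A ω) (c • a)) =
      Ideal.Quotient.mk (relNull A ω) (star c • star a)
    rw [star_mk, star_smul]

noncomputable instance instCStarAlgebraFrel : CStarAlgebra (Frel A ω) where

instance instT2SpaceFrel : T2Space (Frel A ω) :=
  @TopologicalSpace.t2Space_of_metrizableSpace _ _ _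

/-- The quotient map as a star homomorphism. -/
noncomputable def relMk : centralSeq B ω →⋆ₐ[ℂ] Frel A ω where
  toFun := Ideal.Quotient.mk (relNull A ω)
  map_one' := map_one _
  map_mul' := map_mul _
  map_zero' := map_zero _
  map_add' := map_add _
  commutes' _ := rfl
  map_star' _ := rfl

theorem relMk_eq_iff (x y : centralSeq B ω) :
    relMk (A := A) x = relMk y ↔ IsRelNull A ω ((x - y : centralSeq B ω) : ℕ →ᵇ B) :=
  Ideal.Quotient.eq

theorem relMk_surjective :
    Function.Surjective (relMk : centralSeq B ω →⋆ₐ[ℂ] Frel A ω) :=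
  Ideal.Quotient.mk_surjective

variable {G : Type*}

omit [IsUnitisation A] in
theorem centralMap_mem_relNull (α : G → B ≃⋆ₐ[ℂ] B) (g : G) (hA : ∀ a ∈ A, (α g).symm a ∈ A)
    {x : centralSeq B ω} (hx : x ∈ relNull A ω) : centralMap α g x ∈ relNull A ω := fun a ha => by
  have h := ((continuous_starAlgHom (autHom α g)).tendsto 0).comp (hx _ (hA a ha))
  rw [map_zero] at h
  refine h.congr fun n => ?_
  show α g ((x : ℕ →ᵇ B) n * (α g).symm a) = α g ((x : ℕ →ᵇ B) n) * a
  rw [map_mul, StarAlgEquiv.apply_symm_apply]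

/-- The action induced on the central sequence algebra of `A`. -/
noncomputable def relAct (α : G → B ≃⋆ₐ[ℂ] B) (hA : ∀ g, ∀ a ∈ A, (α g).symm a ∈ A) (g : G) :
    Frel A ω →⋆ₐ[ℂ] Frel A ω :=
  let f : Frel A ω →+* Frel A ω := Ideal.Quotient.lift _
    ((Ideal.Quotient.mk (relNull A ω)).comp ((centralMap α g).toAlgHom.toRingHom))
    fun _ hx => Ideal.Quotient.eq_zero_iff_mem.2 (centralMap_mem_relNull α g (hA g) hx)
  { f with
    commutes' := fun r => congrArg (Ideal.Quotient.mk (relNull A ω))
      (AlgHomClass.commutes (centralMap (ω := ω) α g) r)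
    map_star' := fun x => by
      obtain ⟨y, rfl⟩ := Ideal.Quotient.mk_surjective x
      exact congrArg (Ideal.Quotient.mk (relNull A ω)) (map_star (centralMap α g) y) }

theorem relAct_mk (α : G → B ≃⋆ₐ[ℂ] B) (hA : ∀ g, ∀ a ∈ A, (α g).symm a ∈ A) (g : G)
    (x : centralSeq B ω) : relAct α hA g (relMk x) = relMk (centralMap α g x) := rfl

end Vale.Agent.P095.Rel
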