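import Vale.Agent.P095.Rel.Defs
import Vale.Agent.P095.Fixed
import Vale.Agent.P101.Lit.Hom.Main

/-!
P095, nonunital algebras: the fixed point algebra of the central sequence algebra of an ideal has
copies; an invariant pair gives maps of all dimension drop stages into it.
-/

open Filter Topology BoundedContinuousFunction
open scoped ComplexOrder

namespace Vale.Agent.P095.Rel

open Vale.Agent.P101 Vale.Agent.P101.Lit

variable {B : Type*} [CStarAlgebra B] [TopologicalSpace.SeparableSpace B] {A : Submodule ℂ B}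
  {ω : Ultrafilter ℕ}

/-- Reindexing keeps countably many sequences central, countably many null on `A`, and makes
finitely many commute with finitely many others. -/
theorem exists_reindex_rel (hω : (ω : Filter ℕ) ≤ atTop) {S N : Set (centralSeq B ω)}
    (hS : S.Countable) (hN : N.Countable) (hN0 : ∀ z ∈ N, IsRelNull A ω (z : ℕ →ᵇ B))
    {G Y : Set (centralSeq B ω)} (hG : G.Finite) (hY : Y.Finite) :
    ∃ k : ℕ → ℕ, (∀ s ∈ S, reindex k (s : ℕ →ᵇ B) ∈ centralSeq B ω) ∧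
      (∀ z ∈ N, IsRelNull A ω (reindex k (z : ℕ →ᵇ B))) ∧
      ∀ g ∈ G, ∀ y ∈ Y, Tendsto
        (fun n => (g : ℕ →ᵇ B) (k n) * (y : ℕ →ᵇ B) n - (y : ℕ →ᵇ B) n * (g : ℕ →ᵇ B) (k n))
        ω (𝓝 0) := by
  obtain ⟨b, hb⟩ := TopologicalSpace.exists_dense_seq B
  have : Nonempty (A : Set B) := ⟨⟨0, A.zero_mem⟩⟩
  obtain ⟨a, ha⟩ := TopologicalSpace.exists_dense_seq (A : Set B)
  obtain ⟨s, hs⟩ := (hS.insert 0).exists_eq_range (Set.insert_nonempty _ _)
  obtain ⟨z, hz⟩ := (hN.insert 0).exists_eq_range (Set.insert_nonempty _ _)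
  have hz0 : ∀ i, IsRelNull A ω (z i : ℕ →ᵇ B) := fun i => by
    have hi : z i ∈ insert 0 N := hz ▸ Set.mem_range_self i
    rcases hi with h | h
    · intro a' _; simp [h]
    · exact hN0 _ h
  have hk : ∀ n : ℕ, ∃ m,
      (∀ i ∈ Finset.range (n + 1), ∀ j ∈ Finset.range (n + 1),
        ‖(s i : ℕ →ᵇ B) m * b j - b j * (s i : ℕ →ᵇ B) m‖ < 1 / (n + 1)) ∧
      (∀ i ∈ Finset.range (n + 1), ∀ j ∈ Finset.range (n + 1),
        ‖(z i : ℕ →ᵇ B) m * (a j : B)‖ < 1 / (n + 1)) ∧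
      ∀ g ∈ G, ∀ y ∈ Y,
        ‖(g : ℕ →ᵇ B) m * (y : ℕ →ᵇ B) n - (y : ℕ →ᵇ B) n * (g : ℕ →ᵇ B) m‖ < 1 / (n + 1) := by
    intro n
    have hn : (0 : ℝ) < 1 / (n + 1) := by positivity
    refine (((Finset.range (n + 1)).eventually_all.2 fun i _ =>
      (Finset.range (n + 1)).eventually_all.2 fun j _ =>
        ((s i).2 (b j)).norm.eventually_lt_const (by simpa using hn)).and
      (((Finset.range (n + 1)).eventually_all.2 fun i _ =>
        (Finset.range (n + 1)).eventually_all.2 fun j _ =>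
          (hz0 i (a j) (a j).2).norm.eventually_lt_const (by simpa using hn)).and
      (hG.eventually_all.2 fun g _ => hY.eventually_all.2 fun y _ =>
        (g.2 ((y : ℕ →ᵇ B) n)).norm.eventually_lt_const (by simpa using hn)))).exists
  choose k hk1 hk2 hk3 using hk
  have hlim : Tendsto (fun n : ℕ => (1 : ℝ) / (n + 1)) ω (𝓝 0) :=
    tendsto_one_div_add_atTop_nhds_zero_nat.mono_left hω
  have hev : ∀ i, ∀ᶠ n : ℕ in (ω : Filter ℕ), i ∈ Finset.range (n + 1) := fun i => by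
    filter_upwards [hω (eventually_ge_atTop i)] with n hn
    exact Finset.mem_range.2 (Nat.lt_succ_of_le hn)
  -- an approximation turns a dense set of test elements into all of them
  have dense_test : ∀ (x : ℕ →ᵇ B) (L : B → B → B) (C : ℝ) (D : Set B) (d : ℕ → B),
      0 ≤ C → (∀ u v, L u v - L u 0 = L u v) → (∀ u v w, L u (v - w) = L u v - L u w) →
      (∀ u v, ‖L u v‖ ≤ C * ‖u‖ * ‖v‖) → (∀ v ∈ D, v ∈ closure (Set.range d)) →
      (∀ j, Tendsto (fun n => L (x (k n)) (d j)) ω (𝓝 0)) →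
      ∀ v ∈ D, Tendsto (fun n => L (x (k n)) v) ω (𝓝 0) := by
    intro x L C D d hC _ hsub hL hd hj v hv
    rw [Metric.tendsto_nhds]
    intro ε hε
    obtain ⟨_, ⟨j, rfl⟩, hvj⟩ := Metric.mem_closure_iff.1 (hd v hv)
      (ε / (2 * (C * ‖x‖ + 1))) (by positivity)
    filter_upwards [Metric.tendsto_nhds.1 (hj j) (ε / 2) (half_pos hε)] with n hn
    rw [dist_zero_right] at hn ⊢
    rw [dist_eq_norm] at hvj
    have h1 : ‖L (x (k n)) (v - d j)‖ ≤ ε / 2 :=
      calc _ ≤ C * ‖x (k n)‖ * ‖v - d j‖ := hL _ _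
        _ ≤ (C * ‖x‖ + 1) * (ε / (2 * (C * ‖x‖ + 1))) := by
            gcongr
            nlinarith [x.norm_coe_le_norm (k n)]
        _ = ε / 2 := by field_simp
    rw [hsub] at h1
    linarith [norm_le_norm_add_norm_sub' (L (x (k n)) v) (L (x (k n)) (d j))]
  refine ⟨k, fun x hx v => ?_, fun x hx v hv => ?_, fun g hg y hy => ?_⟩
  · obtain ⟨i, rfl⟩ : x ∈ Set.range s := hs ▸ Or.inr hx
    refine dense_test (s i : ℕ →ᵇ B) (fun u v => u * v - v * u) 2 Set.univ b (by norm_num)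
      (fun u v => by simp) (fun u v w => by simp only [mul_sub, sub_mul]; abel) (fun u v => ?_)
      (fun v _ => hb v) (fun j => ?_) v trivial
    · calc ‖u * v - v * u‖ ≤ ‖u‖ * ‖v‖ + ‖v‖ * ‖u‖ :=
            (norm_sub_le _ _).trans (add_le_add (norm_mul_le _ _) (norm_mul_le _ _))
        _ = 2 * ‖u‖ * ‖v‖ := by ring
    · refine squeeze_zero_norm' ?_ hlim
      filter_upwards [hev i, hev j] with n hi hj
      exact (hk1 n i hi j hj).le
  · obtain ⟨i, rfl⟩ : x ∈ Set.range z := hz ▸ Or.inr hx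
    refine dense_test (z i : ℕ →ᵇ B) (fun u v => u * v) 1 A (fun j => (a j : B)) (by norm_num)
      (fun u v => by simp) (fun u v w => mul_sub _ _ _) (fun u v => by simpa using norm_mul_le u v)
      (fun w hw => ?_) (fun j => ?_) v hv
    · have h1 := closure_subtype.1 (ha ⟨w, hw⟩)
      rwa [← Set.range_comp] at h1
    · refine squeeze_zero_norm' ?_ hlim
      filter_upwards [hev i, hev j] with n hi hj
      exact (hk2 n i hi j hj).le
  · exact squeeze_zero_norm (fun n => (hk3 n g hg y hy).le) hlim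

variable [IsUnitisation A] {G : Type*} [Countable G]

set_option maxHeartbeats 1600000 in
-- the instances of the quotient are expensive to unify
theorem hasCopies_fixed (hω : (ω : Filter ℕ) ≤ atTop) (α : G → B ≃⋆ₐ[ℂ] B) [Group G]
    (hA : ∀ g, ∀ a ∈ A, (α g).symm a ∈ A) :
    HasCopies (fixedAlg (relAct (ω := ω) α hA)) := by
  classical
  intro F S
  let FB : Finset (Frel A ω) := F.image Subtype.val
  choose rep hrep using relMk_surjective (A := A) (ω := ω)
  let G₀ : Set (centralSeq B ω) := rep '' FB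
  let Gs : Set (centralSeq B ω) := G₀ ∪ star '' G₀
  have hG₀ : G₀.Finite := FB.finite_toSet.image _
  have hGfin : Gs.Finite := hG₀.union (hG₀.image _)
  have hGs : ∀ g ∈ Gs, star g ∈ Gs := by
    rintro g (hg | ⟨x, hx, rfl⟩)
    · exact Or.inr ⟨g, hg, rfl⟩
    · exact Or.inl (by rwa [star_star])
  obtain ⟨e, he⟩ := exists_seq_dense_adjoin hGfin hGs
  choose y hy hyn using fun (i m : ℕ) => Submodule.Quotient.norm_mk_lt
    (Ideal.Quotient.mk (relNull A ω) (e i)) (Nat.one_div_pos_of_nat (α := ℝ) (n := m))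
  let Y : Set (centralSeq B ω) :=
    rep '' (Subtype.val '' (S : Set (fixedAlg (relAct (ω := ω) α hA)))) ∪
      star '' (rep '' (Subtype.val '' (S : Set (fixedAlg (relAct (ω := ω) α hA)))))
  have hY : Y.Finite := by
    have h := ((S.finite_toSet.image Subtype.val).image rep)
    exact h.union (h.image _)
  let N : Set (centralSeq B ω) :=
    Set.range (fun p : ℕ × ℕ => y p.1 p.2 - e p.1) ∪
      ⋃ g : G, (fun r => centralMap α g r - r) '' G₀
  have hN : N.Countable :=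
    (Set.countable_range _).union (Set.countable_iUnion fun g => (hG₀.image _).countable)
  have hN0 : ∀ z ∈ N, IsRelNull A ω (z : ℕ →ᵇ B) := by
    rintro z (⟨⟨i, m⟩, rfl⟩ | hz)
    · exact Ideal.Quotient.eq.1 (hy i m)
    · obtain ⟨g, r, ⟨x, hx, rfl⟩, rfl⟩ := Set.mem_iUnion.1 hz
      obtain ⟨x', -, rfl⟩ := Finset.mem_image.1 hx
      exact (relMk_eq_iff _ _).1 (by rw [← relAct_mk α hA, hrep, x'.2 g])
  let S₀ : Set (centralSeq B ω) := Gs ∪ (Set.range e ∪ Set.range fun p : ℕ × ℕ => y p.1 p.2)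
  have hS₀ : S₀.Countable :=
    hGfin.countable.union ((Set.countable_range _).union (Set.countable_range _))
  obtain ⟨k, hkC, hkN, hkY⟩ := exists_reindex_rel (A := A) hω hS₀ hN hN0 hGfin hY
  set R₀ := StarAlgebra.adjoin ℂ Gs with hR₀
  let ρ : centralSeq B ω →⋆ₐ[ℂ] (ℕ →ᵇ B) := (reindex k).comp (centralSeq B ω).subtype
  have hR₀C : R₀ ≤ (centralSeq B ω).comap ρ :=
    StarAlgebra.adjoin_le fun g hg => hkC g (Or.inl hg)
  let π : R₀ →⋆ₐ[ℂ] Frel A ω := relMk.comp R₀.subtype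
  let ψ : R₀ →⋆ₐ[ℂ] Frel A ω :=
    relMk.comp ((ρ.comp R₀.subtype).codRestrict (centralSeq B ω) fun x => hR₀C x.2)
  have hψ : ∀ x, ‖ψ x‖ ≤ ‖π x‖ := by
    intro x
    refine le_of_forall_pos_le_add fun ε hε => ?_
    obtain ⟨_, ⟨i, rfl⟩, hi⟩ := Metric.mem_closure_iff.1 (he x.2) (ε / 3) (by positivity)
    obtain ⟨m, hm⟩ := exists_nat_one_div_lt (show (0 : ℝ) < ε / 3 by positivity)
    rw [dist_eq_norm] at hi
    have he' : ρ (e i) ∈ centralSeq B ω := hkC _ (Or.inr (Or.inl ⟨i, rfl⟩))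
    have hy' : ρ (y i m) ∈ centralSeq B ω := hkC _ (Or.inr (Or.inr ⟨(i, m), rfl⟩))
    have heq : relMk (A := A) (⟨_, he'⟩ : centralSeq B ω) = relMk ⟨_, hy'⟩ := by
      refine ((relMk_eq_iff _ _).2 ?_).symm
      exact hkN _ (Or.inl ⟨(i, m), rfl⟩)
    have h1 : ‖ψ x - relMk (A := A) (⟨_, he'⟩ : centralSeq B ω)‖ ≤ ε / 3 := by
      refine (le_of_eq ?_).trans ((Submodule.Quotient.norm_mk_le (relNull A ω)
        ((⟨ρ x, hR₀C x.2⟩ : centralSeq B ω) - ⟨_, he'⟩)).trans ?_)
      · exact congrArg norm (map_sub (relMk (A := A)) _ _).symm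
      · refine (BoundedContinuousFunction.norm_le (by positivity)).2 fun n => ?_
        exact ((((x : centralSeq B ω) - e i : centralSeq B ω) : ℕ →ᵇ B).norm_coe_le_norm
          (k n)).trans hi.le
    have h2 : ‖relMk (A := A) (⟨_, hy'⟩ : centralSeq B ω)‖ ≤ ‖y i m‖ := by
      refine (Submodule.Quotient.norm_mk_le (relNull A ω) _).trans ?_
      exact (BoundedContinuousFunction.norm_le (norm_nonneg _)).2 fun n =>
        (y i m : ℕ →ᵇ B).norm_coe_le_norm (k n)
    have h3 : ‖Ideal.Quotient.mk (relNull A ω) (e i) - π x‖ ≤ ε / 3 := by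
      rw [norm_sub_rev]
      refine le_of_eq_of_le ?_
        ((Submodule.Quotient.norm_mk_le (relNull A ω) ((x : centralSeq B ω) - e i)).trans hi.le)
      rfl
    rw [heq] at h1
    linarith [hyn i m, norm_le_norm_add_norm_sub' (ψ x) (relMk (A := A) (⟨_, hy'⟩ : centralSeq B ω)),
      norm_le_norm_add_norm_sub' (Ideal.Quotient.mk (relNull A ω) (e i)) (π x)]
  obtain ⟨φ, hφ⟩ := exists_dominated_hom π ψ hψ
  have hle : cstarGen (FB : Set (Frel A ω)) ≤ π.range.topologicalClosure := by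
    refine StarSubalgebra.topologicalClosure_mono (StarAlgebra.adjoin_le fun x hx => ?_)
    exact ⟨⟨rep x, StarAlgebra.subset_adjoin ℂ Gs (Or.inl ⟨x, hx, rfl⟩)⟩, hrep x⟩
  let Φ : cstarGen (FB : Set (Frel A ω)) →⋆ₐ[ℂ] Frel A ω :=
    φ.comp (StarSubalgebra.inclusion hle)
  have hfix : ∀ g z, relAct α hA g (Φ z) = Φ z := fun g z =>
    cstarGen_induction (T := StarAlgHom.equalizer ((relAct α hA g).comp Φ) Φ)
      (isClosed_eq ((continuous_starAlgHom (relAct α hA g)).comp (continuous_starAlgHom Φ))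
        (continuous_starAlgHom Φ)) (fun x hx => by
      have hr : rep x ∈ R₀ := StarAlgebra.subset_adjoin ℂ Gs (Or.inl ⟨x, hx, rfl⟩)
      show relAct α hA g (Φ _) = Φ _
      rw [show Φ ⟨x, mem_cstarGen_of_mem hx⟩ = ψ ⟨rep x, hr⟩ from
        (hφ (StarSubalgebra.inclusion hle ⟨x, mem_cstarGen_of_mem hx⟩)).2 ⟨rep x, hr⟩
          (hrep x).symm]
      refine (relMk_eq_iff _ _).2 ?_
      exact hkN _ (Or.inr (Set.mem_iUnion.2 ⟨g, rep x, ⟨x, hx, rfl⟩, rfl⟩))) z
  have hmem : ∀ x : cstarGen (F : Set (fixedAlg (relAct (ω := ω) α hA))),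
      ((x : fixedAlg (relAct (ω := ω) α hA)) : Frel A ω) ∈
        cstarGen (FB : Set (Frel A ω)) := by
    intro x
    have h1 : StarAlgebra.adjoin ℂ (F : Set (fixedAlg (relAct (ω := ω) α hA))) ≤
        (cstarGen (FB : Set (Frel A ω))).comap (fixedAlg (relAct (ω := ω) α hA)).subtype :=
      StarAlgebra.adjoin_le fun y hy =>
        mem_cstarGen_of_mem (Finset.mem_coe.2 (Finset.mem_image_of_mem _ hy))
    exact closure_minimal h1 ((StarSubalgebra.isClosed_topologicalClosure _).preimage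
      continuous_subtype_val) x.2
  refine ⟨((Φ.comp (((fixedAlg (relAct (ω := ω) α hA)).subtype.comp
      (cstarGen (F : Set (fixedAlg (relAct (ω := ω) α hA)))).subtype).codRestrict _ hmem))).codRestrict
      _ fun x g => hfix g _, fun z b hb => Subtype.ext ?_⟩
  refine closure_minimal ?_ (isClosed_eq (continuous_id.mul continuous_const)
    (continuous_const.mul continuous_id)) ((hφ (StarSubalgebra.inclusion hle ⟨_, hmem z⟩)).1)
  rintro _ ⟨x, rfl⟩
  have hcomm : R₀ ≤ ((StarSubalgebra.centralizer ℂ ((relMk (A := A)) '' Y)).comap ψ).map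
      R₀.subtype := by
    refine StarAlgebra.adjoin_le fun g hg => ?_
    refine ⟨⟨g, StarAlgebra.subset_adjoin ℂ Gs hg⟩, ?_, rfl⟩
    refine (StarSubalgebra.mem_centralizer_iff ℂ).2 ?_
    rintro _ ⟨w, hw, rfl⟩
    have key : ∀ w ∈ Y, relMk (A := A) w * ψ ⟨g, StarAlgebra.subset_adjoin ℂ Gs hg⟩ =
        ψ ⟨g, StarAlgebra.subset_adjoin ℂ Gs hg⟩ * relMk w := fun w hw => by
      rw [show ψ ⟨g, StarAlgebra.subset_adjoin ℂ Gs hg⟩ =
        relMk (⟨ρ g, hkC g (Or.inl hg)⟩ : centralSeq B ω) from rfl, ← map_mul, ← map_mul]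
      refine ((relMk_eq_iff _ _).2 fun a _ => ?_).symm
      have h := (hkY g hg w hw).mul_const a
      rw [zero_mul] at h
      exact h
    refine ⟨key w hw, ?_⟩
    rw [← map_star (relMk (A := A))]
    refine key _ ?_
    rcases hw with hw | ⟨w', hw', rfl⟩
    · exact Or.inr ⟨w, hw, rfl⟩
    · exact Or.inl (by rwa [star_star])
  obtain ⟨x', hx', hxx'⟩ := hcomm x.2
  obtain rfl : x' = x := Subtype.ext hxx'
  have := (StarSubalgebra.mem_centralizer_iff ℂ).1 hx' (relMk (rep (b : Frel A ω)))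
    ⟨_, Or.inl ⟨_, ⟨b, hb, rfl⟩, rfl⟩, rfl⟩
  rw [hrep] at this
  exact this.1.symm

/-- An invariant pair on `A` gives maps of all stages into the fixed point algebra. -/
theorem exists_invariant_stageHom [PartialOrder B] [StarOrderedRing B] [Group G]
    (hω : (ω : Filter ℕ) ≤ atTop) {α : G → B ≃⋆ₐ[ℂ] B} (hA : ∀ g, ∀ a ∈ A, (α g).symm a ∈ A)
    (hpair : SI.HasInvariantPair A α) (i : ℕ) :
    ∃ ψ : St ℂ (pp i) (qq i) →⋆ₐ[ℂ] Frel A ω, ∀ g x, relAct α hA g (ψ x) = ψ x := by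
  obtain ⟨c, s, hc1, hs2, hcc, hsc, hrel⟩ := hpair
  let cb : ℕ →ᵇ B := .ofNormedAddCommGroupDiscrete c 1 hc1
  let sb : ℕ →ᵇ B := .ofNormedAddCommGroupDiscrete s 2 hs2
  have central : ∀ x : ℕ → B, SI.CentralTo A x → ∀ b : B,
      Tendsto (fun n => x n * b - b * x n) ω (𝓝 0) := fun x hx b => by
    obtain ⟨r, hr⟩ := IsUnitisation.span (A := A) b
    refine ((tendsto_zero_iff_norm_tendsto_zero.2 (hx _ hr)).mono_left hω).congr fun n => ?_
    simp only [mul_sub, sub_mul, mul_smul_comm, smul_mul_assoc, mul_one, one_mul]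
    abel
  have hc : cb ∈ centralSeq B ω := central c hcc
  have hs : sb ∈ centralSeq B ω := central s hsc
  have conv : ∀ z : ℕ → B, Tendsto (fun n => ‖z n‖) atTop (𝓝 0) → Tendsto z ω (𝓝 0) :=
    fun z hz => tendsto_zero_iff_norm_tendsto_zero.2 (hz.mono_left hω)
  set C : centralSeq B ω := ⟨cb, hc⟩
  set S : centralSeq B ω := ⟨sb, hs⟩
  have hp : DimDropPair (relMk (A := A) C) (relMk S) := by
    refine ⟨?_, ?_, ?_⟩
    · rw [← map_mul, ← map_zero (relMk (A := A) (ω := ω))]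
      refine (relMk_eq_iff _ _).2 fun a ha => ?_
      simpa [C, cb] using conv _ (hrel a ha).1
    · simp only [← map_star, ← map_mul]
      rw [← map_one (relMk (A := A) (ω := ω))]
      simp only [← map_sub]
      refine (relMk_eq_iff _ _).2 fun a ha => ?_
      simpa [C, S, cb, sb] using conv _ (hrel a ha).2.1
    · simp only [← map_star, ← map_mul]
      refine (relMk_eq_iff _ _).2 fun a ha => ?_
      simpa [C, S, cb, sb] using conv _ (hrel a ha).2.2.1
  have hcf : relMk C ∈ fixedAlg (relAct (ω := ω) α hA) := fun g => by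
    rw [relAct_mk]
    refine (relMk_eq_iff _ _).2 fun a ha => ?_
    exact conv _ ((hrel a ha).2.2.2 g).1
  have hsf : relMk S ∈ fixedAlg (relAct (ω := ω) α hA) := fun g => by
    rw [relAct_mk]
    refine (relMk_eq_iff _ _).2 fun a ha => ?_
    exact conv _ ((hrel a ha).2.2.2 g).2
  have hp' : DimDropPair (⟨_, hcf⟩ : fixedAlg (relAct (ω := ω) α hA)) ⟨_, hsf⟩ :=
    ⟨Subtype.ext hp.1, Subtype.ext hp.2.1, Subtype.ext hp.2.2⟩
  obtain ⟨ψ⟩ := nonempty_stageHom (hasCopies_fixed hω α hA) hp'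
    (by have := (expo_bounds i).1; omega) (expo_bounds i).2 (pp_eq i) (qq_eq i)
  exact ⟨(fixedAlg (relAct (ω := ω) α hA)).subtype.comp ψ, fun g x => (ψ x).2 g⟩

end Vale.Agent.P095.Rel
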