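import Mathlib

/-! P095, nonunital algebras: equivariant one-sided approximate intertwining on ideals. As in
`P095.Lit.Intertwine.Limit`, relative to an ideal `A` of `B` and ideals of the stages; the cocycle
consists of unitary multipliers of `A`, written as their left actions on `A`. -/

open Filter Topology

namespace Vale.Agent.P095.Rel

/-- A closed two-sided star ideal, as a submodule. -/
def IsStarIdeal {D : Type*} [CStarAlgebra D] (I : Submodule ℂ D) : Prop :=
  IsClosed (I : Set D) ∧ (∀ b, ∀ a ∈ I, b * a ∈ I ∧ a * b ∈ I) ∧ ∀ a ∈ I, star a ∈ I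


namespace Intertwine

section Conv

variable {B : Type*} [CStarAlgebra B] {M : ℕ → Type*} [∀ n, CStarAlgebra (M n)]

/-- The elements `f n` of the stages approach the image of `a`. -/
def Conv (e : ∀ n, B →⋆ₐ[ℂ] M n) (f : ∀ n, M n) (a : B) : Prop :=
  Tendsto (fun n => ‖f n - e n a‖) atTop (𝓝 0)

variable {e : ∀ n, B →⋆ₐ[ℂ] M n} {f g : ∀ n, M n} {a b : B}

lemma conv_const (a : B) : Conv e (fun n => e n a) a := by simp [Conv]

lemma Conv.congr (h : Conv e f a) (he : ∀ᶠ n in atTop, f n = g n) : Conv e g a :=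
  Tendsto.congr' (he.mono fun n hn => by simp only [hn]) h

lemma Conv.add (h : Conv e f a) (h' : Conv e g b) : Conv e (fun n => f n + g n) (a + b) := by
  refine squeeze_zero (fun _ => norm_nonneg _) (fun n => ?_) (by simpa using Filter.Tendsto.add h h')
  rw [map_add, add_sub_add_comm]
  exact norm_add_le _ _

lemma Conv.star (h : Conv e f a) : Conv e (fun n => star (f n)) (star a) :=
  Tendsto.congr (fun n => by rw [map_star, ← star_sub, norm_star]) h

lemma Conv.smul (h : Conv e f a) (r : ℂ) : Conv e (fun n => r • f n) (r • a) := by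
  have := Tendsto.const_mul ‖r‖ h
  rw [mul_zero] at this
  exact this.congr fun n => by rw [map_smul, ← smul_sub, norm_smul]

lemma Conv.norm (he : ∀ n a, ‖e n a‖ = ‖a‖) (h : Conv e f a) :
    Tendsto (fun n => ‖f n‖) atTop (𝓝 ‖a‖) := by
  refine tendsto_iff_norm_sub_tendsto_zero.2 (squeeze_zero (fun _ => norm_nonneg _) (fun n => ?_) h)
  rw [Real.norm_eq_abs, ← he n a]
  exact abs_norm_sub_norm_le _ _

lemma Conv.unique (he : ∀ n a, ‖e n a‖ = ‖a‖) (h : Conv e f a) (h' : Conv e f b) : a = b := by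
  have h1 := (h.add (h'.smul (-1))).norm he
  simp only [neg_smul, one_smul, add_neg_cancel, norm_zero] at h1
  have := tendsto_nhds_unique h1 tendsto_const_nhds
  rwa [norm_eq_zero, add_neg_eq_zero] at this

lemma Conv.mul (he : ∀ n a, ‖e n a‖ = ‖a‖) (h : Conv e f a) (h' : Conv e g b) :
    Conv e (fun n => f n * g n) (a * b) := by
  have hf := h.norm he
  refine squeeze_zero (fun _ => norm_nonneg _) (fun n => ?_)
    (show Tendsto (fun n => ‖f n‖ * ‖g n - e n b‖ + ‖f n - e n a‖ * ‖b‖) atTop (𝓝 0) by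
      simpa using (hf.mul h').add (h.mul_const ‖b‖))
  have e1 : f n * g n - e n (a * b) = f n * (g n - e n b) + (f n - e n a) * e n b := by
    rw [map_mul]; noncomm_ring
  rw [e1, ← he n b]
  exact (norm_add_le _ _).trans (add_le_add (norm_mul_le _ _) ((norm_mul_le _ _).trans_eq
    (by rw [he n b])))

lemma exists_conv_of_approx (he : ∀ n a, ‖e n a‖ = ‖a‖) {S : Set B} (hS : IsClosed S)
    (h : ∀ δ > (0 : ℝ), ∃ a ∈ S, ∀ᶠ n in atTop, ‖f n - e n a‖ ≤ δ) : ∃ a ∈ S, Conv e f a := by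
  choose a haS ha using fun p : ℕ => h (1 / (p + 1 : ℝ)) Nat.one_div_pos_of_nat
  have hpq : ∀ p q : ℕ, dist (a p) (a q) ≤ 1 / (p + 1 : ℝ) + 1 / (q + 1 : ℝ) := fun p q => by
    obtain ⟨n, hp, hq⟩ := ((ha p).and (ha q)).exists
    rw [dist_eq_norm, ← he n, map_sub]
    have := norm_sub_le_norm_sub_add_norm_sub (e n (a p)) (f n) (e n (a q))
    rw [norm_sub_rev (e n (a p)) (f n)] at this
    linarith
  have hlim := tendsto_one_div_add_atTop_nhds_zero_nat (𝕜 := ℝ)
  have hC : CauchySeq a := by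
    refine Metric.cauchySeq_iff.2 fun δ hδ => ?_
    obtain ⟨N, hN⟩ := eventually_atTop.1 (hlim.eventually (gt_mem_nhds (half_pos hδ)))
    exact ⟨N, fun p hp q hq => (hpq p q).trans_lt (by linarith [hN p hp, hN q hq])⟩
  obtain ⟨c, hc⟩ := cauchySeq_tendsto_of_complete hC
  refine ⟨c, hS.mem_of_tendsto hc (Eventually.of_forall haS), ?_⟩
  refine Metric.tendsto_nhds.2 fun δ hδ => ?_
  obtain ⟨p, hp1, hp2⟩ := ((hlim.eventually (gt_mem_nhds (half_pos hδ))).and
    (hc.eventually (Metric.ball_mem_nhds c (half_pos hδ)))).exists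
  filter_upwards [ha p] with n hn
  rw [dist_eq_norm, sub_zero, norm_norm]
  have h2 : ‖e n (a p) - e n c‖ < δ / 2 := by rw [← map_sub, he, ← dist_eq_norm]; exact hp2
  linarith [norm_sub_le_norm_sub_add_norm_sub (f n) (e n (a p)) (e n c)]

lemma exists_conv_of_conv (he : ∀ n a, ‖e n a‖ = ‖a‖) {S : Set B} (hS : IsClosed S)
    (h : ∀ δ > (0 : ℝ), ∃ g : ∀ n, M n, (∃ a ∈ S, Conv e g a) ∧ ∀ᶠ n in atTop, ‖f n - g n‖ ≤ δ) :
    ∃ a ∈ S, Conv e f a := by
  refine exists_conv_of_approx he hS fun δ hδ => ?_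
  obtain ⟨g, ⟨a, haS, ha⟩, hg⟩ := h (δ / 2) (half_pos hδ)
  refine ⟨a, haS, ?_⟩
  filter_upwards [hg, ha.eventually (gt_mem_nhds (half_pos hδ))] with n h1 h2
  linarith [norm_sub_le_norm_sub_add_norm_sub (f n) (g n) (e n a)]

end Conv

lemma norm_conj {D : Type*} [CStarAlgebra D] {w : D} (hw : w ∈ unitary D) (x : D) :
    ‖star w * x * w‖ = ‖x‖ := by
  rw [CStarRing.norm_mul_mem_unitary _ hw, CStarRing.norm_mem_unitary_mul _ (Unitary.star_mem hw)]

lemma conj_conj {D : Type*} [CStarAlgebra D] {w : D} (hw : w ∈ unitary D) (x : D) :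
    star w * (w * x * star w) * w = x := by
  simp only [mul_assoc, Unitary.star_mul_self_of_mem hw, mul_one]
  rw [← mul_assoc, Unitary.star_mul_self_of_mem hw, one_mul]

lemma cancel_left {D : Type*} [CStarAlgebra D] {w : D} (hw : w ∈ unitary D) (x : D) :
    w * (star w * x) = x := by
  rw [← mul_assoc, Unitary.mul_star_self_of_mem hw, one_mul]

lemma cancel_right {D : Type*} [CStarAlgebra D] {w : D} (hw : w ∈ unitary D) (x : D) :
    star w * (w * x) = x := by
  rw [← mul_assoc, Unitary.star_mul_self_of_mem hw, one_mul]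

/-- The sequence of unitaries. -/
theorem exists_tower {B : Type*} [CStarAlgebra B] {A : Submodule ℂ B}
    {D : ℕ → Type*} [∀ k, CStarAlgebra (D k)] {I : ∀ k, Submodule ℂ (D k)}
    (hI : ∀ k, IsStarIdeal (I k))
    (T : ∀ {k l : ℕ}, k ≤ l → (D k →⋆ₐ[ℂ] D l))
    (hTT : ∀ {k l m : ℕ} (h : k ≤ l) (h' : l ≤ m) (b : D k), T h' (T h b) = T (h.trans h') b)
    (hT : ∀ {k l : ℕ} (h : k ≤ l) (b : D k), ‖T h b‖ = ‖b‖)
    (hTI : ∀ {k l : ℕ} (h : k ≤ l), ∀ b ∈ I k, T h b ∈ I l)
    (ι : ∀ k, B →⋆ₐ[ℂ] D k)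
    (hι : ∀ {k l : ℕ} (h : k ≤ l) (a : B), T h (ι k a) = ι l a)
    {Γ : Type*} (β : ∀ k, Γ → (D k →⋆ₐ[ℂ] D k))
    (hβT : ∀ {k l : ℕ} (h : k ≤ l) g (b : D k), β l g (T h b) = T h (β k g b))
    (hflip : ∀ k, ∀ (F : Finset B) (G : Finset (D k)) (K : Finset Γ) (ε : ℝ), 0 < ε →
      (∀ a ∈ F, a ∈ A) → (∀ b ∈ G, b ∈ I k) →
      ∃ m, ∃ h : k ≤ m, ∃ v ∈ unitary (D m),
        (∀ g ∈ K, ∀ b ∈ G, ‖(β m g (star v) - star v) * T h b‖ ≤ ε) ∧
        (∀ a ∈ F, ‖v * ι m a - ι m a * v‖ ≤ ε) ∧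
        ∀ b ∈ G, ∃ a ∈ A, ‖star v * T h b * v - ι m a‖ ≤ ε)
    (γ : ℕ → Γ) (α : ℕ → B) (hα : ∀ i, α i ∈ A)
    (d : ∀ k, ℕ → D k) (hd : ∀ k i, d k i ∈ I k) :
    ∃ (m : ℕ → ℕ) (w : ∀ n, D (m n)), (∀ n, n ≤ m n) ∧ Monotone m ∧
      (∀ n, w n ∈ unitary (D (m n))) ∧
      (∀ k i, ∀ δ > (0 : ℝ), ∃ a ∈ A, ∀ᶠ n in atTop, ∀ h : k ≤ m n,
        ‖star (w n) * T h (d k i) * w n - ι (m n) a‖ ≤ δ) ∧
      (∀ i, ∀ δ > (0 : ℝ), ∃ n₀, ∀ᶠ n in atTop, ∀ h : m n₀ ≤ m n,
        ‖star (w n) * T h (w n₀ * ι (m n₀) (α i) * star (w n₀)) * w n - ι (m n) (α i)‖ ≤ δ) ∧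
      ∀ k i l, ∃ N, ∀ n, N ≤ n → ∀ (h : k ≤ m n) (h' : m n ≤ m (n + 1)),
        ‖star (w (n + 1) * β _ (γ l) (star (w (n + 1)))) * T (h.trans h') (d k i) -
          T h' (star (w n * β _ (γ l) (star (w n))) * T h (d k i))‖ ≤ (1 / 2 : ℝ) ^ n ∧
        ‖w (n + 1) * β _ (γ l) (star (w (n + 1))) * T (h.trans h') (d k i) -
          T h' (w n * β _ (γ l) (star (w n)) * T h (d k i))‖ ≤ (1 / 2 : ℝ) ^ n := by
  classical
  let ε : ℕ → ℝ := fun n => (1 / 2 : ℝ) ^ n
  have hε : ∀ n, 0 < ε n := fun n => by positivity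
  let S := Σ' m : ℕ, {w : D m // w ∈ unitary (D m)} × {F : Finset B // ∀ a ∈ F, a ∈ A}
  have step : ∀ (n : ℕ) (s : S), ∃ s' : S, n + 1 ≤ s'.1 ∧ s.2.2.1 ⊆ s'.2.2.1 ∧
      ∃ h : s.1 ≤ s'.1,
      (∀ a ∈ s.2.2.1 ∪ (Finset.range (n + 1)).image α,
        ‖star s'.2.1.1 * T h (s.2.1.1 * ι s.1 a * star s.2.1.1) * s'.2.1.1 - ι s'.1 a‖ ≤ ε n) ∧
      (∀ k ≤ n, ∀ i ≤ n, ∀ h' : k ≤ s'.1, ∃ a ∈ s'.2.2.1,
        ‖star s'.2.1.1 * T h' (d k i) * s'.2.1.1 - ι s'.1 a‖ ≤ ε n) ∧
      ∀ k ≤ n, ∀ i ≤ n, ∀ l ≤ n, ∀ h₀ : k ≤ s.1,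
        ‖star (s'.2.1.1 * β _ (γ l) (star s'.2.1.1)) * T (h₀.trans h) (d k i) -
          T h (star (s.2.1.1 * β _ (γ l) (star s.2.1.1)) * T h₀ (d k i))‖ ≤ ε n ∧
        ‖s'.2.1.1 * β _ (γ l) (star s'.2.1.1) * T (h₀.trans h) (d k i) -
          T h (s.2.1.1 * β _ (γ l) (star s.2.1.1) * T h₀ (d k i))‖ ≤ ε n := by
    rintro n ⟨m₀, ⟨w₀, hw₀⟩, F₀, hF₀⟩
    set k₀ := max m₀ (n + 1)
    have hm₀ : m₀ ≤ k₀ := le_max_left _ _
    have hk : ∀ {k}, k ≤ n → k ≤ k₀ := fun h => le_trans (by omega) (le_max_right _ _)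
    set w₁ := T hm₀ w₀ with hw₁d
    have hw₁ : w₁ ∈ unitary (D k₀) := Unitary.map_mem (T hm₀) hw₀
    let c : ℕ → ℕ → D k₀ := fun k i => if h : k ≤ k₀ then T h (d k i) else 0
    have hc : ∀ k i, c k i ∈ I k₀ := fun k i => by
      simp only [c]; split_ifs with h
      · exact hTI h _ (hd k i)
      · exact zero_mem _
    let G : Finset (D k₀) := (Finset.range (n + 1)).biUnion fun k =>
      (Finset.range (n + 1)).biUnion fun i =>
        {star w₁ * c k i * w₁, star w₁ * c k i} ∪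
          (Finset.range (n + 1)).image fun l => β k₀ (γ l) (star w₁) * c k i
    have hG : ∀ b ∈ G, b ∈ I k₀ := by
      simp only [G, Finset.mem_biUnion, Finset.mem_union, Finset.mem_insert, Finset.mem_singleton,
        Finset.mem_image]
      rintro b ⟨k, -, i, -, (rfl | rfl) | ⟨l, -, rfl⟩⟩
      · exact ((hI k₀).2.1 _ _ ((hI k₀).2.1 _ _ (hc k i)).1).2
      · exact ((hI k₀).2.1 _ _ (hc k i)).1
      · exact ((hI k₀).2.1 _ _ (hc k i)).1
    have hF : ∀ a ∈ F₀ ∪ (Finset.range (n + 1)).image α, a ∈ A := by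
      simp only [Finset.mem_union, Finset.mem_image]
      rintro a (h | ⟨i, -, rfl⟩)
      exacts [hF₀ a h, hα i]
    obtain ⟨m, hm, v, hv, hvK, hvF, hvG⟩ := hflip k₀ (F₀ ∪ (Finset.range (n + 1)).image α) G
      ((Finset.range (n + 1)).image γ) (ε n) (hε n) hF hG
    set u := T hm w₁ with hud
    have hu : u ∈ unitary (D m) := Unitary.map_mem (T hm) hw₁
    have hw : u * v ∈ unitary (D m) := mul_mem hu hv
    choose ap hapA hap using fun b : {b // b ∈ G} => hvG b.1 b.2
    refine ⟨⟨m, ⟨_, hw⟩, F₀ ∪ G.attach.image ap, ?_⟩, le_trans (le_max_right _ _) hm,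
      Finset.subset_union_left, hm₀.trans hm,
      fun a ha => ?_, fun k hkn i hin h' => ?_, fun k hkn i hin l hln h₀ => ?_⟩
    · simp only [Finset.mem_union, Finset.mem_image]
      rintro a (h | ⟨b, -, rfl⟩)
      exacts [hF₀ a h, hapA b]
    · have e : star (u * v) * T (hm₀.trans hm) (w₀ * ι m₀ a * star w₀) * (u * v)
          - ι m a = star v * (ι m a * v - v * ι m a) := by
        rw [← hTT hm₀ hm]
        simp only [map_mul, map_star, hι, ← hw₁d, ← hud]
        rw [star_mul, mul_sub (star v), cancel_right hv]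
        congr 1
        calc star v * star u * (u * ι m a * star u) * (u * v)
            = star v * (star u * (u * ι m a * star u) * u) * v := by simp only [mul_assoc]
          _ = star v * (ι m a * v) := by rw [conj_conj hu, mul_assoc]
      rw [e, CStarRing.norm_mem_unitary_mul _ (Unitary.star_mem hv), norm_sub_rev]
      exact hvF a ha
    · have hg : star w₁ * c k i * w₁ ∈ G :=
        Finset.mem_biUnion.2 ⟨k, Finset.mem_range.2 (by omega), Finset.mem_biUnion.2
          ⟨i, Finset.mem_range.2 (by omega), Finset.mem_union_left _ (Finset.mem_insert_self _ _)⟩⟩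
      refine ⟨ap ⟨_, hg⟩, Finset.mem_union_right _ (Finset.mem_image_of_mem _ (Finset.mem_attach _ _)),
        le_of_eq_of_le ?_ (hap ⟨_, hg⟩)⟩
      simp only [c, dif_pos (hk hkn), map_mul, map_star, hTT, star_mul, mul_assoc, hud]
    · have hK : γ l ∈ (Finset.range (n + 1)).image γ :=
        Finset.mem_image_of_mem _ (Finset.mem_range.2 (by omega))
      have g1 : star w₁ * c k i ∈ G :=
        Finset.mem_biUnion.2 ⟨k, Finset.mem_range.2 (by omega), Finset.mem_biUnion.2
          ⟨i, Finset.mem_range.2 (by omega), Finset.mem_union_left _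
            (Finset.mem_insert_of_mem (Finset.mem_singleton_self _))⟩⟩
      have g2 : β k₀ (γ l) (star w₁) * c k i ∈ G :=
        Finset.mem_biUnion.2 ⟨k, Finset.mem_range.2 (by omega), Finset.mem_biUnion.2
          ⟨i, Finset.mem_range.2 (by omega), Finset.mem_union_right _
            (Finset.mem_image_of_mem _ (Finset.mem_range.2 (by omega)))⟩⟩
      have i1 := hvK _ hK _ g1
      have i2 := hvK _ hK _ g2
      set p := β m (γ l)
      have hc' : T hm (c k i) = T (h₀.trans (hm₀.trans hm)) (d k i) := by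
        simp only [c, dif_pos (hk hkn), hTT]
      have hu' : T (hm₀.trans hm) w₀ = u := by rw [hud, hw₁d, hTT]
      have t1 : T (hm₀.trans hm) (star (w₀ * β m₀ (γ l) (star w₀)) * T h₀ (d k i)) =
          p u * (star u * T hm (c k i)) := by
        rw [map_mul, hTT, hc', star_mul, ← map_star (β m₀ (γ l)), star_star, map_mul, ← hβT,
          map_star, hu', mul_assoc]
      have t2 : T (hm₀.trans hm) (w₀ * β m₀ (γ l) (star w₀) * T h₀ (d k i)) =
          u * (p (star u) * T hm (c k i)) := by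
        rw [map_mul, hTT, hc', map_mul, ← hβT, map_star, hu', mul_assoc]
      rw [t1, t2, ← hc']
      simp only [map_mul, map_star (T hm), ← hud, ← hβT hm] at i1 i2
      constructor
      · have e : star (u * v * p (star (u * v))) * T hm (c k i) - p u * (star u * T hm (c k i)) =
            p u * (p v * (-((p (star v) - star v) * (star u * T hm (c k i))))) := by
          simp only [star_mul, ← map_star p, star_star, map_mul]
          rw [← neg_mul, neg_sub, sub_mul,
            mul_sub, mul_sub, map_star, cancel_left (Unitary.map_mem p hv)]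
          simp only [mul_assoc]
        rw [e, CStarRing.norm_mem_unitary_mul _ (Unitary.map_mem p hu),
          CStarRing.norm_mem_unitary_mul _ (Unitary.map_mem p hv), norm_neg]
        exact i1
      · have e : u * v * p (star (u * v)) * T hm (c k i) - u * (p (star u) * T hm (c k i)) =
            u * (v * ((p (star v) - star v) * (p (star u) * T hm (c k i)))) := by
          rw [star_mul, map_mul, sub_mul, mul_sub, mul_sub, cancel_left hv]
          simp only [mul_assoc]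
        rw [e, CStarRing.norm_mem_unitary_mul _ hu, CStarRing.norm_mem_unitary_mul _ hv]
        exact i2
  choose nxt hnm hsub hle hprot happ hcoc using step
  let s : ℕ → S := Nat.rec ⟨0, ⟨1, one_mem _⟩, ∅, by simp⟩ fun n s => nxt n s
  let m : ℕ → ℕ := fun n => (s n).1
  let w : ∀ n, D (m n) := fun n => (s n).2.1.1
  have hw : ∀ n, w n ∈ unitary (D (m n)) := fun n => (s n).2.1.2
  have hm : ∀ n, n ≤ m n := by
    rintro (_ | n)
    · exact Nat.zero_le _
    · exact hnm n (s n)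
  have hmm : ∀ n, m n ≤ m (n + 1) := fun n => hle n (s n)
  have hmono : Monotone m := monotone_nat_of_le_succ hmm
  have hε' : ∀ n, ε (n + 1) = ε n / 2 := fun n => by simp only [ε, pow_succ]; ring
  -- one step moves protected constants by at most `ε n`
  have move : ∀ {k n} (h : k ≤ m n) (h' : k ≤ m (n + 1)) (b : D k) (a : B),
      a ∈ (s n).2.2.1 ∪ (Finset.range (n + 1)).image α →
      ‖star (w (n + 1)) * T h' b * w (n + 1) - ι _ a‖ ≤
        ‖star (w n) * T h b * w n - ι _ a‖ + ε n := by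
    intro k n h h' b a ha
    set y := w n * ι (m n) a * star (w n)
    have h1 : ‖star (w (n + 1)) * T (hmm n) y * w (n + 1) - ι _ a‖ ≤ ε n := hprot n (s n) a ha
    have h2 : ‖star (w (n + 1)) * T h' b * w (n + 1) - star (w (n + 1)) * T (hmm n) y * w (n + 1)‖ =
        ‖star (w n) * T h b * w n - ι _ a‖ := by
      rw [← sub_mul, ← mul_sub, ← hTT h (hmm n) b, ← map_sub, norm_conj (hw (n + 1)), hT,
        ← norm_conj (hw n) (T h b - y), mul_sub, sub_mul, conj_conj (hw n)]
    linarith [norm_sub_le_norm_sub_add_norm_sub (star (w (n + 1)) * T h' b * w (n + 1))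
      (star (w (n + 1)) * T (hmm n) y * w (n + 1)) (ι _ a)]
  -- protected constants stay close
  have keep : ∀ n₀ (a : B), (∀ r, a ∈ (s (n₀ + r)).2.2.1 ∪ (Finset.range (n₀ + r + 1)).image α) →
      ∀ {k} (h : k ≤ m n₀) (b : D k) n, n₀ ≤ n → ∀ h' : k ≤ m n,
      ‖star (w n) * T h' b * w n - ι _ a‖ ≤ ‖star (w n₀) * T h b * w n₀ - ι _ a‖ + 2 * ε n₀ := by
    intro n₀ a ha k h b n hn
    obtain ⟨r, rfl⟩ := Nat.exists_eq_add_of_le hn
    suffices ∀ h' : k ≤ m (n₀ + r), ‖star (w (n₀ + r)) * T h' b * w (n₀ + r) - ι _ a‖ ≤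
        ‖star (w n₀) * T h b * w n₀ - ι _ a‖ + (2 * ε n₀ - 2 * ε (n₀ + r)) from
      fun h' => (this h').trans (by linarith [hε (n₀ + r)])
    clear hn
    induction r with
    | zero => exact fun h' => by simp
    | succ r ih =>
      intro h'
      have h1 := move (h.trans (hmono (Nat.le_add_right n₀ r))) h' b a (ha r)
      have h2 := ih (h.trans (hmono (Nat.le_add_right n₀ r)))
      have h3 := hε' (n₀ + r)
      rw [show n₀ + r + 1 = n₀ + (r + 1) from rfl] at h3
      exact le_trans h1 (by linarith)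
  have mem_F : ∀ n (a : B), a ∈ (s (n + 1)).2.2.1 → a ∈ A := fun n a ha => (s (n + 1)).2.2.2 a ha
  have hlim : Tendsto ε atTop (𝓝 0) :=
    tendsto_pow_atTop_nhds_zero_of_lt_one (by norm_num) (by norm_num)
  refine ⟨m, w, hm, hmono, hw, fun k i δ hδ => ?_, fun i δ hδ => ?_,
    fun k i l => ⟨max k (max i l), fun n hn h h' => ?_⟩⟩
  · obtain ⟨p, hp, hpk⟩ := ((hlim.eventually (gt_mem_nhds (by positivity : 0 < δ / 3))).and
      (eventually_ge_atTop (max k i))).exists
    have hkp : k ≤ m (p + 1) := le_trans (le_trans (le_trans (le_max_left k i) hpk) (Nat.le_succ p)) (hm _)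
    obtain ⟨a, haF, ha⟩ := happ p (s p) k ((le_max_left k i).trans hpk) i ((le_max_right k i).trans hpk) hkp
    refine ⟨a, mem_F p a haF, eventually_atTop.2 ⟨p + 1, fun n hn h => ?_⟩⟩
    have h1 := keep (p + 1) a (fun r => ?_) hkp (d k i) n hn h
    · have h2 : ε (p + 1) ≤ ε p := by linarith [hε' p, hε p]
      linarith [show ‖star (w (p + 1)) * T hkp (d k i) * w (p + 1) - ι _ a‖ ≤ ε p from ha]
    · induction r with
      | zero => exact Finset.mem_union_left _ haF
      | succ r _ =>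
        refine Finset.mem_union_left _ ?_
        clear * - haF hsub
        induction r + 1 with
        | zero => exact haF
        | succ r ih => exact hsub (p + 1 + r) (s (p + 1 + r)) ih
  · obtain ⟨p, hp, hpi⟩ := ((hlim.eventually (gt_mem_nhds (by positivity : 0 < δ / 3))).and
      (eventually_ge_atTop i)).exists
    refine ⟨p, eventually_atTop.2 ⟨p, fun n hn h => ?_⟩⟩
    have h1 := keep p (α i) (fun r => Finset.mem_union_right _ (Finset.mem_image_of_mem α
      (Finset.mem_range.2 (by omega)))) le_rfl (w p * ι (m p) (α i) * star (w p)) n hn h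
    have hid : T (le_refl (m p)) (w p * ι (m p) (α i) * star (w p)) =
        w p * ι (m p) (α i) * star (w p) := by
      set b := w p * ι (m p) (α i) * star (w p)
      have h2 := hT (le_refl (m p)) (T le_rfl b - b)
      rwa [map_sub, hTT, sub_self, norm_zero, eq_comm, norm_eq_zero, sub_eq_zero] at h2
    rw [hid, conj_conj (hw p), sub_self, norm_zero, zero_add] at h1
    linarith
  · exact hcoc n (s n) k ((le_max_left _ _).trans hn) i
      ((le_max_left _ _).trans ((le_max_right _ _).trans hn)) l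
      ((le_max_right _ _).trans ((le_max_right _ _).trans hn)) h

lemma Conv.sub {B : Type*} [CStarAlgebra B] {M : ℕ → Type*} [∀ n, CStarAlgebra (M n)]
    {e : ∀ n, B →⋆ₐ[ℂ] M n} {f g : ∀ n, M n} {a b : B} (h : Conv e f a) (h' : Conv e g b) :
    Conv e (fun n => f n - g n) (a - b) := by
  simpa [sub_eq_add_neg] using h.add (h'.smul (-1))

lemma Conv.of_close {B : Type*} [CStarAlgebra B] {M : ℕ → Type*} [∀ n, CStarAlgebra (M n)]
    {e : ∀ n, B →⋆ₐ[ℂ] M n} {f g : ∀ n, M n} {a : B} (h : Conv e f a)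
    (h' : Tendsto (fun n => ‖g n - f n‖) atTop (𝓝 0)) : Conv e g a :=
  squeeze_zero (fun _ => norm_nonneg _) (fun n => norm_sub_le_norm_sub_add_norm_sub (g n) (f n) _)
    (by simpa using Filter.Tendsto.add h' h)

end Intertwine

open Intertwine in
/-- Equivariant one-sided approximate intertwining, relative to ideals. -/
theorem exists_limit_maps_multiplier {B : Type*} [CStarAlgebra B]
    [TopologicalSpace.SeparableSpace B] {A : Submodule ℂ B} (hA : IsStarIdeal A)
    {D : ℕ → Type*} [∀ k, CStarAlgebra (D k)] [∀ k, TopologicalSpace.SeparableSpace (D k)]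
    {I : ∀ k, Submodule ℂ (D k)} (hI : ∀ k, IsStarIdeal (I k))
    (T : ∀ {k l : ℕ}, k ≤ l → (D k →⋆ₐ[ℂ] D l))
    (hTT : ∀ {k l m : ℕ} (h : k ≤ l) (h' : l ≤ m) (b : D k), T h' (T h b) = T (h.trans h') b)
    (hT : ∀ {k l : ℕ} (h : k ≤ l) (b : D k), ‖T h b‖ = ‖b‖)
    (hTI : ∀ {k l : ℕ} (h : k ≤ l), ∀ b ∈ I k, T h b ∈ I l)
    (ι : ∀ k, B →⋆ₐ[ℂ] D k)
    (hι : ∀ {k l : ℕ} (h : k ≤ l) (a : B), T h (ι k a) = ι l a)
    (hιn : ∀ k (a : B), ‖ι k a‖ = ‖a‖)
    (hιI : ∀ k, ∀ a ∈ A, ι k a ∈ I k)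
    {Γ : Type*} [Monoid Γ] [Countable Γ] (act : Γ → B → B)
    (hact : ∀ g, ∀ a ∈ A, act g a ∈ A)
    (β : ∀ k, Γ → (D k →⋆ₐ[ℂ] D k))
    (hβmul : ∀ k g g' (b : D k), β k (g * g') b = β k g (β k g' b))
    (hβT : ∀ {k l : ℕ} (h : k ≤ l) g (b : D k), β l g (T h b) = T h (β k g b))
    (hβι : ∀ k g (a : B), β k g (ι k a) = ι k (act g a))
    (hβI : ∀ k g, ∀ b ∈ I k, β k g b ∈ I k)
    (hflip : ∀ k, ∀ (F : Finset B) (G : Finset (D k)) (K : Finset Γ) (ε : ℝ), 0 < ε →
      (∀ a ∈ F, a ∈ A) → (∀ b ∈ G, b ∈ I k) →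
      ∃ m, ∃ h : k ≤ m, ∃ v ∈ unitary (D m),
        (∀ g ∈ K, ∀ b ∈ G, ‖(β m g (star v) - star v) * T h b‖ ≤ ε) ∧
        (∀ a ∈ F, ‖v * ι m a - ι m a * v‖ ≤ ε) ∧
        ∀ b ∈ G, ∃ a ∈ A, ‖star v * T h b * v - ι m a‖ ≤ ε) :
    ∃ (j : ∀ k, D k → B) (L : Γ → B → B),
      (∀ k, ∀ b ∈ I k, j k b ∈ A ∧ ‖j k b‖ = ‖b‖ ∧ j k (star b) = star (j k b) ∧
        (∀ r : ℂ, j k (r • b) = r • j k b) ∧
        ∀ b' ∈ I k, j k (b + b') = j k b + j k b' ∧ j k (b * b') = j k b * j k b') ∧
      (∀ (k l : ℕ) (h : k ≤ l), ∀ b ∈ I k, j l (T h b) = j k b) ∧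
      (∀ a ∈ A, ∀ δ > (0 : ℝ), ∃ k, ∃ b ∈ I k, ‖j k b - a‖ < δ) ∧
      (∀ g, (∀ a ∈ A, L g a ∈ A ∧ (∀ r : ℂ, L g (r • a) = r • L g a) ∧
        ∀ a' ∈ A, L g (a + a') = L g a + L g a' ∧ L g (a * a') = L g a * a' ∧
          star (L g a) * L g a' = star a * a') ∧
        ∀ a ∈ A, ∃ a' ∈ A, L g a' = a) ∧
      (∀ g h, ∀ a ∈ A, L (g * h) (act g a) = L g (act g (L h a))) ∧
      ∀ k g, ∀ b ∈ I k, j k (β k g b) = L g (star (L g (star (act g (j k b))))) := by
  classical
  obtain ⟨γ, hγ⟩ := exists_surjective_nat Γ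
  have hsA : TopologicalSpace.SeparableSpace A :=
    (TopologicalSpace.IsSeparable.of_separableSpace (A : Set B)).separableSpace
  have hsI : ∀ k, TopologicalSpace.SeparableSpace (I k) := fun k =>
    (TopologicalSpace.IsSeparable.of_separableSpace (I k : Set (D k))).separableSpace
  let α : ℕ → B := fun i => (TopologicalSpace.denseSeq A i : B)
  let d : ∀ k, ℕ → D k := fun k i => (TopologicalSpace.denseSeq (I k) i : D k)
  have hd : ∀ k i, d k i ∈ I k := fun k i => (TopologicalSpace.denseSeq (I k) i).2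
  have hα : ∀ i, α i ∈ A := fun i => (TopologicalSpace.denseSeq A i).2
  have dnear : ∀ k, ∀ b ∈ I k, ∀ δ > (0 : ℝ), ∃ i, ‖b - d k i‖ < δ := fun k b hb δ hδ => by
    obtain ⟨i, hi⟩ := (TopologicalSpace.denseRange_denseSeq (I k)).exists_dist_lt ⟨b, hb⟩ hδ
    exact ⟨i, by rw [← dist_eq_norm]; exact hi⟩
  have αnear : ∀ a ∈ A, ∀ δ > (0 : ℝ), ∃ i, ‖a - α i‖ < δ := fun a ha δ hδ => by
    obtain ⟨i, hi⟩ := (TopologicalSpace.denseRange_denseSeq A).exists_dist_lt ⟨a, ha⟩ hδ
    exact ⟨i, by rw [← dist_eq_norm]; exact hi⟩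
  obtain ⟨m, w, hm, hmono, hw, hP1, hP2, hP3⟩ :=
    exists_tower hI T hTT hT hTI ι hι β hβT hflip γ α hα d hd
  let e : ∀ n, B →⋆ₐ[ℂ] D (m n) := fun n => ι (m n)
  have he : ∀ n a, ‖e n a‖ = ‖a‖ := fun n a => hιn (m n) a
  let P : ∀ k n, D k → D (m n) := fun k n b => if h : k ≤ m n then T h b else 0
  have ev : ∀ k, ∀ᶠ n in atTop, k ≤ m n := fun k =>
    (eventually_ge_atTop k).mono fun n hn => hn.trans (hm n)
  have hP : ∀ {k n} (h : k ≤ m n) (b : D k), P k n b = T h b := fun {k n} h b => dif_pos h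
  have hPI : ∀ k n, ∀ b ∈ I k, P k n b ∈ I (m n) := fun k n b hb => by
    by_cases h : k ≤ m n
    · rw [hP h]; exact hTI h b hb
    · simp only [P, dif_neg h]; exact zero_mem _
  let R : ∀ n, D (m n) → D (m n) := fun n x => star (w n) * x * w n
  have Rmul : ∀ n x y, R n x * R n y = R n (x * y) := fun n x y => by
    simp only [R, mul_assoc]
    rw [cancel_left (hw n)]
  let X : ∀ k, D k → ∀ n, D (m n) := fun k b n => R n (P k n b)
  have Xdist : ∀ k b b', ∀ᶠ n in atTop, ‖X k b n - X k b' n‖ = ‖b - b'‖ := fun k b b' =>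
    (ev k).mono fun n h => by
      simp only [X, R, hP h]
      rw [← sub_mul, ← mul_sub, norm_conj (hw n), ← map_sub, hT]
  have conv_d : ∀ k i, ∃ a ∈ A, Conv e (X k (d k i)) a := fun k i => by
    refine exists_conv_of_approx he hA.1 fun δ hδ => ?_
    obtain ⟨a, haA, ha⟩ := hP1 k i δ hδ
    refine ⟨a, haA, ?_⟩
    filter_upwards [ha, ev k] with n hn h
    simp only [X, R, hP h]
    exact hn h
  have conv_X : ∀ k, ∀ b ∈ I k, ∃ a ∈ A, Conv e (X k b) a := fun k b hb => by
    refine exists_conv_of_conv he hA.1 fun δ hδ => ?_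
    obtain ⟨i, hi⟩ := dnear k b hb δ hδ
    exact ⟨X k (d k i), conv_d k i, (Xdist k b (d k i)).mono fun n hn => hn.trans_le hi.le⟩
  have hJ : ∀ k b, ∃ a, b ∈ I k → a ∈ A ∧ Conv e (X k b) a := fun k b => by
    by_cases hb : b ∈ I k
    · obtain ⟨a, h⟩ := conv_X k b hb
      exact ⟨a, fun _ => h⟩
    · exact ⟨0, fun h => absurd h hb⟩
  choose j hj using hJ
  have jdist : ∀ k, ∀ b ∈ I k, ∀ b' ∈ I k, ‖j k b - j k b'‖ = ‖b - b'‖ := fun k b hb b' hb' =>
    tendsto_nhds_unique (((hj k b hb).2.sub (hj k b' hb').2).norm he)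
      (tendsto_const_nhds.congr' ((Xdist k b b').mono fun n hn => hn.symm))
  have jdense : ∀ a ∈ A, ∀ δ > (0 : ℝ), ∃ k, ∃ b ∈ I k, ‖j k b - a‖ < δ := fun a ha δ hδ => by
    obtain ⟨i, hi⟩ := αnear a ha (δ / 2) (half_pos hδ)
    obtain ⟨n₀, hn₀⟩ := hP2 i (δ / 4) (by positivity)
    set b := w n₀ * ι (m n₀) (α i) * star (w n₀)
    have hb : b ∈ I (m n₀) :=
      ((hI _).2.1 _ _ ((hI _).2.1 _ _ (hιI _ _ (hα i))).1).2
    refine ⟨m n₀, b, hb, ?_⟩
    have h1 : ‖j (m n₀) b - α i‖ ≤ δ / 4 := by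
      have h2 := ((hj (m n₀) b hb).2.sub (conv_const (e := e) (α i))).norm he
      refine le_of_tendsto h2 ?_
      filter_upwards [hn₀, ev (m n₀)] with n hn h
      simp only [X, R, hP h]
      exact hn h
    rw [norm_sub_rev] at hi
    linarith [norm_sub_le_norm_sub_add_norm_sub (j (m n₀) b) (α i) a]
  -- sequences that are summably Cauchy along the connecting maps
  have conv_q : ∀ q : ∀ n, D (m n), (∃ N, ∀ n, N ≤ n → q n ∈ I (m n) ∧
      ∀ h : m n ≤ m (n + 1), ‖q (n + 1) - T h (q n)‖ ≤ (1 / 2 : ℝ) ^ n) →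
      ∃ a ∈ A, Conv e (fun n => R n (q n)) a := by
    rintro q ⟨N, hq⟩
    refine exists_conv_of_conv he hA.1 fun δ hδ => ?_
    have hlim : Tendsto (fun n => (1 / 2 : ℝ) ^ n) atTop (𝓝 0) :=
      tendsto_pow_atTop_nhds_zero_of_lt_one (by norm_num) (by norm_num)
    obtain ⟨r, hr, hNr⟩ := ((hlim.eventually (gt_mem_nhds (half_pos hδ))).and
      (eventually_ge_atTop N)).exists
    refine ⟨X (m r) (q r), conv_X _ _ (hq r hNr).1, eventually_atTop.2 ⟨r, fun n hn => ?_⟩⟩
    obtain ⟨t, rfl⟩ := Nat.exists_eq_add_of_le hn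
    have key : ∀ h : m r ≤ m (r + t), ‖q (r + t) - T h (q r)‖ ≤
        2 * (1 / 2 : ℝ) ^ r - 2 * (1 / 2 : ℝ) ^ (r + t) := by
      clear hn
      induction t with
      | zero =>
        intro h
        have h2 := hT h (T h (q r) - q r)
        rw [map_sub, hTT, sub_self, norm_zero, eq_comm, norm_eq_zero, sub_eq_zero] at h2
        rw [h2]
        simp
      | succ t ih =>
        intro h
        have h' : m (r + t) ≤ m (r + t + 1) := hmono (Nat.le_succ _)
        have h1 := (hq (r + t) (hNr.trans (Nat.le_add_right _ _))).2 h'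
        have h2 := ih (hmono (Nat.le_add_right r t))
        rw [← hT h', map_sub, hTT] at h2
        have h3 := norm_sub_le_norm_sub_add_norm_sub (q (r + t + 1)) (T h' (q (r + t))) (T h (q r))
        refine le_trans h3 ((add_le_add h1 h2).trans ?_)
        rw [show r + (t + 1) = r + t + 1 from rfl, pow_succ]
        linarith
    have hrt : m r ≤ m (r + t) := hmono (Nat.le_add_right r t)
    simp only [X, R, hP hrt]
    rw [← sub_mul, ← mul_sub, norm_conj (hw _)]
    linarith [key hrt, show (0 : ℝ) ≤ (1 / 2 : ℝ) ^ (r + t) by positivity]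
  -- the cocycle
  let z : Γ → ∀ n, D (m n) := fun g n => star (w n) * β (m n) g (w n)
  have hz : ∀ g n, z g n ∈ unitary (D (m n)) := fun g n =>
    mul_mem (Unitary.star_mem (hw n)) (Unitary.map_mem _ (hw n))
  have hz' : ∀ g n, star (z g n) = β (m n) g (star (w n)) * w n := fun g n => by
    simp only [z, star_mul, star_star, map_star]
  have zex : ∀ g, ∀ a ∈ A, (∃ a' ∈ A, Conv e (fun n => z g n * e n a) a') ∧
      ∃ a' ∈ A, Conv e (fun n => star (z g n) * e n a) a' := by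
    intro g a ha
    obtain ⟨l, rfl⟩ := hγ g
    have near : ∀ δ > (0 : ℝ), ∃ k i, ∀ᶠ n in atTop, ‖e n a - X k (d k i) n‖ ≤ δ := fun δ hδ => by
      obtain ⟨k, b, hb, hab⟩ := jdense a ha (δ / 2) (half_pos hδ)
      obtain ⟨i, hi⟩ := dnear k b hb (δ / 4) (by positivity)
      refine ⟨k, i, ?_⟩
      have hdi : ‖j k (d k i) - a‖ < 3 * δ / 4 := by
        have h2 := jdist k (d k i) (hd k i) b hb
        rw [norm_sub_rev (d k i) b] at h2
        linarith [norm_sub_le_norm_sub_add_norm_sub (j k (d k i)) (j k b) a]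
      filter_upwards [((hj k (d k i) (hd k i)).2.sub (conv_const (e := e) a)).norm he
        |>.eventually (gt_mem_nhds (show ‖j k (d k i) - a‖ < δ by linarith))] with n hn
      rw [norm_sub_rev]
      exact hn.le
    have eq1 : ∀ n x, z (γ l) n * R n x = R n (star (w n * β (m n) (γ l) (star (w n))) * x) :=
      fun n x => by
        simp only [z, R, star_mul, map_star, star_star, mul_assoc]
    have eq2 : ∀ n x, star (z (γ l) n) * R n x = R n (w n * β (m n) (γ l) (star (w n)) * x) :=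
      fun n x => by
        simp only [hz', R, mul_assoc, cancel_left (hw n), cancel_right (hw n)]
    constructor
    · refine exists_conv_of_conv he hA.1 fun δ hδ => ?_
      obtain ⟨k, i, hki⟩ := near δ hδ
      obtain ⟨N, hN⟩ := hP3 k i l
      refine ⟨fun n => R n (star (w n * β (m n) (γ l) (star (w n))) * P k n (d k i)),
        conv_q _ ⟨max N k, fun n hn => ⟨((hI _).2.1 _ _ (hPI k n _ (hd k i))).1, fun h' => ?_⟩⟩, ?_⟩
      · have h : k ≤ m n := ((le_max_right _ _).trans hn).trans (hm n)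
        rw [hP h, hP (h.trans h')]
        exact (hN n ((le_max_left _ _).trans hn) h h').1
      · filter_upwards [hki] with n hn
        rw [← eq1, ← mul_sub, CStarRing.norm_mem_unitary_mul _ (hz _ n)]
        exact hn
    · refine exists_conv_of_conv he hA.1 fun δ hδ => ?_
      obtain ⟨k, i, hki⟩ := near δ hδ
      obtain ⟨N, hN⟩ := hP3 k i l
      refine ⟨fun n => R n (w n * β (m n) (γ l) (star (w n)) * P k n (d k i)),
        conv_q _ ⟨max N k, fun n hn => ⟨((hI _).2.1 _ _ (hPI k n _ (hd k i))).1, fun h' => ?_⟩⟩, ?_⟩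
      · have h : k ≤ m n := ((le_max_right _ _).trans hn).trans (hm n)
        rw [hP h, hP (h.trans h')]
        exact (hN n ((le_max_left _ _).trans hn) h h').2
      · filter_upwards [hki] with n hn
        rw [← eq2, ← mul_sub, CStarRing.norm_mem_unitary_mul _ (Unitary.star_mem (hz _ n))]
        exact hn
  have hLex : ∀ g a, ∃ a', a ∈ A → a' ∈ A ∧ Conv e (fun n => z g n * e n a) a' := fun g a => by
    by_cases ha : a ∈ A
    · obtain ⟨a', h⟩ := (zex g a ha).1
      exact ⟨a', fun _ => h⟩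
    · exact ⟨0, fun h => absurd h ha⟩
  choose L hL using hLex
  refine ⟨j, L, fun k b hb => ?_, fun k l h b hb => ?_, jdense, fun g => ⟨fun a ha => ?_, fun a ha => ?_⟩,
    fun g h a ha => ?_, fun k g b hb => ?_⟩
  · obtain ⟨hbA, hbj⟩ := hj k b hb
    refine ⟨hbA, ?_, ?_, fun r => ?_, fun b' hb' => ⟨?_, ?_⟩⟩
    · refine tendsto_nhds_unique (hbj.norm he) (tendsto_const_nhds.congr' ((ev k).mono fun n h => ?_))
      simp only [X, R, hP h, norm_conj (hw n), hT]
    · refine Conv.unique he (hj k _ ((hI k).2.2 b hb)).2 (hbj.star.congr ((ev k).mono fun n h => ?_))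
      simp only [X, R, hP h, star_mul, map_star, star_star, mul_assoc]
    · refine Conv.unique he (hj k _ ((I k).smul_mem r hb)).2
        ((hbj.smul r).congr ((ev k).mono fun n h => ?_))
      simp only [X, R, hP h, map_smul, mul_smul_comm, smul_mul_assoc]
    · refine Conv.unique he (hj k _ (add_mem hb hb')).2
        ((hbj.add (hj k b' hb').2).congr ((ev k).mono fun n h => ?_))
      simp only [X, R, hP h, map_add, mul_add, add_mul]
    · refine Conv.unique he (hj k _ ((hI k).2.1 b b' hb').1).2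
        ((hbj.mul he (hj k b' hb').2).congr ((ev k).mono fun n h => ?_))
      simp only [X, Rmul, hP h, map_mul]
  · refine Conv.unique he (hj l _ (hTI h b hb)).2 ((hj k b hb).2.congr ((ev l).mono fun n h' => ?_))
    simp only [X, hP h', hP (h.trans h'), hTT]
  · obtain ⟨haA, haL⟩ := hL g a ha
    refine ⟨haA, fun r => ?_, fun a' ha' => ⟨?_, ?_, ?_⟩⟩
    · exact Conv.unique he (hL g _ (A.smul_mem r ha)).2
        ((haL.smul r).congr (Eventually.of_forall fun n => by simp only [map_smul, mul_smul_comm]))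
    · exact Conv.unique he (hL g _ (add_mem ha ha')).2
        ((haL.add (hL g a' ha').2).congr (Eventually.of_forall fun n => by simp only [map_add, mul_add]))
    · exact Conv.unique he (hL g _ (hA.2.1 a' a ha).2).2
        ((haL.mul he (conv_const a')).congr (Eventually.of_forall fun n => by
          simp only [map_mul, mul_assoc]))
    · exact Conv.unique he ((haL.star.mul he (hL g a' ha').2).congr (Eventually.of_forall fun n => by
          simp only [star_mul, mul_assoc, cancel_right (hz g n), map_mul, map_star]))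
        (conv_const (star a * a'))
  · obtain ⟨a', ha', hc⟩ := (zex g a ha).2
    refine ⟨a', ha', Conv.unique he (hL g a' ha').2 ?_⟩
    refine Tendsto.congr (fun n => ?_) hc
    rw [← CStarRing.norm_mem_unitary_mul (star (z g n) * e n a - e n a') (hz g n), mul_sub,
      cancel_left (hz g n), norm_sub_rev]
  · refine Conv.unique he (hL (g * h) _ (hact g a ha)).2
      (Conv.of_close (hL g _ (hact g _ (hL h a ha).1)).2
        (squeeze_zero (fun _ => norm_nonneg _) (fun n => ?_) (hL h a ha).2))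
    have e1 : z (g * h) n * e n (act g a) = z g n * β (m n) g (z h n * e n a) := by
      simp only [z, e, hβmul, map_mul, map_star, hβι, mul_assoc,
        cancel_left (Unitary.map_mem (β (m n) g) (hw n))]
    rw [e1, ← mul_sub, CStarRing.norm_mem_unitary_mul _ (hz g n),
      show e n (act g (L h a)) = β (m n) g (e n (L h a)) from (hβι (m n) g _).symm, ← map_sub]
    exact NonUnitalStarAlgHom.norm_apply_le _ _
  · have hc : act g (j k b) ∈ A := hact g _ (hj k b hb).1
    obtain ⟨hv, hv'⟩ := hL g _ (hA.2.2 _ hc)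
    refine Conv.unique he (hj k _ (hβI k g b hb)).2
      (Conv.of_close (hL g _ (hA.2.2 _ hv)).2 (squeeze_zero' (Eventually.of_forall fun _ => norm_nonneg _)
        ?_ (by simpa using Filter.Tendsto.add (hj k b hb).2 hv'.star)))
    filter_upwards [ev k] with n h
    set c := act g (j k b)
    have e1 : X k (β k g b) n = z g n * (β (m n) g (X k b n) * star (z g n)) := by
      simp only [X, R, hz', z, hP h, map_mul, hβT h, map_star, mul_assoc,
        cancel_left (Unitary.map_mem (β (m n) g) (hw n))]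
    have e2 : e n c = β (m n) g (e n (j k b)) := (hβι (m n) g _).symm
    rw [e1, ← mul_sub, CStarRing.norm_mem_unitary_mul _ (hz g n)]
    have h3 := norm_sub_le_norm_sub_add_norm_sub (β (m n) g (X k b n) * star (z g n))
      (e n c * star (z g n)) (e n (star (L g (star c))))
    refine h3.trans (add_le_add ?_ (le_of_eq ?_))
    · rw [← sub_mul, CStarRing.norm_mul_mem_unitary _ (Unitary.star_mem (hz g n)), e2, ← map_sub]
      exact NonUnitalStarAlgHom.norm_apply_le _ _
    · simp only [map_star, star_star]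

end Vale.Agent.P095.Rel
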