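import Vale.Agent.P095.Rel.Plain
import Vale.Agent.P095.Lit.Defs
import Vale.Agent.P095.Rel.Absorb
import Vale.Agent.P095.Rel.Homs
import Vale.Agent.P095.Rel.Intertwine
import Vale.Agent.P101.Lit.StageFacts
import Vale.Agent.P095.SI.Statement

/-!
P095, nonunital algebras: equivariant `Z`-stability of actions of countable amenable groups on
simple ideals.
-/

open Filter Topology
open scoped ComplexOrder

namespace Vale.Agent.P095.Rel

open Vale.Agent.P101 Vale.Agent.P101.Lit Vale.Agent.P095.Lit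

variable {B : Type*} [CStarAlgebra B] [PartialOrder B] [StarOrderedRing B]
  [TopologicalSpace.SeparableSpace B] {A : Submodule ℂ B} [IsUnitisation A]
  {G : Type*} [Group G] [Countable G] {α : G → B ≃⋆ₐ[ℂ] B}

omit [TopologicalSpace.SeparableSpace B] [IsUnitisation A] [Countable G] in
theorem symm_mem (h1 : ∀ a, α 1 a = a) (hmul : ∀ g h a, α (g * h) a = α g (α h a))
    (hαA : ∀ g, ∀ a ∈ A, α g a ∈ A) (g : G) : ∀ a ∈ A, (α g).symm a ∈ A := fun a ha => by
  have e : (α g).symm a = α g⁻¹ a := by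
    refine EquivLike.injective (α g) ?_
    rw [StarAlgEquiv.apply_symm_apply, ← hmul, mul_inv_cancel, h1]
  rw [e]
  exact hαA g⁻¹ a ha

omit [Countable G] in
theorem isStarIdeal_StI (p q : ℕ) : IsStarIdeal (StI A p q) :=
  ⟨isClosed_StI, fun b _ hf => mul_mem_StI b hf, fun _ hf => star_mem_StI hf⟩

set_option maxHeartbeats 1000000 in
-- the instances of the stages are expensive to unify
theorem isEquivZStableOn_of_absorbs (hmul : ∀ g h a, α (g * h) a = α g (α h a))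
    (hαA : ∀ g, ∀ a ∈ A, α g a ∈ A) (hA : AbsorbsRel A α) : IsEquivZStableOn A α := by
  classical
  have : ∀ k, TopologicalSpace.SeparableSpace (St B (pp k) (qq k)) := fun k => separableSpace_St _ _
  obtain ⟨j, L, hj, hjc, hjd, hL, hLc, hconj⟩ := exists_limit_maps_multiplier
    (A := A) ⟨IsUnitisation.closed, IsUnitisation.bimod, IsUnitisation.star_mem⟩
    (D := fun k => St B (pp k) (qq k)) (I := fun k => StI A (pp k) (qq k))
    (fun k => isStarIdeal_StI _ _)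
    (fun h => conn h) (fun h h' x => conn_conn h h' x) (fun h x => norm_conn h x)
    (fun h b hb => conn_mem_StI h hb)
    (fun k => cst B (pp k) (qq k)) (fun h a => conn_cst h a) norm_cst
    (fun k a ha => cst_mem_StI ha)
    (fun g => α g) hαA (fun k g => P101.Lit.mapSt (autHom α g))
    (fun k g g' x => Subtype.ext (ContinuousMap.ext fun t => CStarMatrix.ext fun a b =>
      hmul g g' _))
    (fun h g x => by
      obtain ⟨n, rfl⟩ := Nat.exists_eq_add_of_le h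
      rw [conn_push, conn_push, ← P095.Lit.mapSt_eq, ← P095.Lit.mapSt_eq]
      exact P095.Lit.mapSt_push _ _ n x)
    (fun k g a => P101.Lit.mapSt_cst _ a)
    (fun k g b hb => mapSt_mem_StI (hαA g) hb)
    hA
  obtain ⟨J, hJ⟩ : ∃ J : ∀ i, Amb B (pp i) (qq i) → B,
      ∀ i f (hf : f ∈ St B (pp i) (qq i)), J i f = j i ⟨f, hf⟩ :=
    ⟨fun i f => if hf : f ∈ St B (pp i) (qq i) then j i ⟨f, hf⟩ else 0,
      fun i f hf => dif_pos hf⟩
  refine ⟨J, L, hL, hLc, fun i => ⟨fun f g h hf hg hh => ⟨fun e => ?_, fun e => ?_⟩,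
    fun c f h hf hh => ⟨fun e => ?_, fun e => ?_⟩, fun f hf => ?_⟩,
    fun i f hf => ?_, fun a ha r hr => ?_, fun i g f h hf e => ?_⟩
  · rw [hJ i h hh.1, hJ i f hf.1, hJ i g hg.1,
      ← ((hj i ⟨f, hf.1⟩ hf.2).2.2.2.2 ⟨g, hg.1⟩ hg.2).1]
    exact congrArg (j i) (Subtype.ext (ContinuousMap.ext fun t => CStarMatrix.ext (e t)))
  · rw [hJ i h hh.1, hJ i f hf.1, hJ i g hg.1,
      ← ((hj i ⟨f, hf.1⟩ hf.2).2.2.2.2 ⟨g, hg.1⟩ hg.2).2]
    refine congrArg (j i) (Subtype.ext (ContinuousMap.ext fun t => CStarMatrix.ext fun x y => ?_))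
    exact (e t x y).trans (CStarMatrix.mul_apply (M := f t) (N := g t)).symm
  · rw [hJ i h hh.1, hJ i f hf.1, ← (hj i ⟨f, hf.1⟩ hf.2).2.2.2.1 c]
    exact congrArg (j i) (Subtype.ext (ContinuousMap.ext fun t => CStarMatrix.ext (e t)))
  · rw [hJ i h hh.1, hJ i f hf.1, ← (hj i ⟨f, hf.1⟩ hf.2).2.2.1]
    exact congrArg (j i) (Subtype.ext (ContinuousMap.ext fun t => CStarMatrix.ext (e t)))
  · rw [hJ i f hf.1]
    exact ⟨(hj i ⟨f, hf.1⟩ hf.2).1, (hj i ⟨f, hf.1⟩ hf.2).2.1⟩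
  · have hs : conn (Nat.le_succ i) (⟨f, hf.1⟩ : St B (pp i) (qq i)) = stepHom B i ⟨f, hf.1⟩ :=
      (conn_succ le_rfl _ _).trans (congrArg _ (conn_self _ _))
    refine ⟨⟨step_mem (stepOK_pp i) hf.1, stepHom_mem_StI (x := ⟨f, hf.1⟩) hf.2⟩, ?_⟩
    rw [hJ (i + 1) _ (step_mem (stepOK_pp i) hf.1), hJ i f hf.1,
      ← hjc i (i + 1) (Nat.le_succ i) ⟨f, hf.1⟩ hf.2, hs]
    rfl
  · obtain ⟨k, b, hb, hd⟩ := hjd a ha r hr
    refine ⟨k, b.1, ⟨b.2, hb⟩, ?_⟩
    rwa [hJ k b.1 b.2]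
  · have hh : h = (P101.Lit.mapSt (autHom α g) ⟨f, hf.1⟩ : St B (pp i) (qq i)) :=
      ContinuousMap.ext fun t => CStarMatrix.ext (e t)
    subst hh
    rw [hJ i _ (Subtype.property _), hJ i f hf.1]
    exact hconj i g ⟨f, hf.1⟩ hf.2

theorem isEquivZStableOn_of_invariantPair (h1 : ∀ a, α 1 a = a)
    (hmul : ∀ g h a, α (g * h) a = α g (α h a)) (hαA : ∀ g, ∀ a ∈ A, α g a ∈ A)
    (hp : SI.HasInvariantPair A α) : IsEquivZStableOn A α := by
  obtain ⟨ω, hω⟩ : ∃ ω : Ultrafilter ℕ, (ω : Filter ℕ) ≤ atTop := Ultrafilter.exists_le atTop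
  let _ : PartialOrder (centralSeq B ω) := CStarAlgebra.spectralOrder _
  have : StarOrderedRing (centralSeq B ω) := CStarAlgebra.spectralOrderedRing _
  let _ : PartialOrder (Frel A ω) := CStarAlgebra.spectralOrder _
  have : StarOrderedRing (Frel A ω) := CStarAlgebra.spectralOrderedRing _
  exact isEquivZStableOn_of_absorbs hmul hαA (absorbsRel_of_homs (ω := ω)
    (symm_mem h1 hmul hαA) (exists_invariant_stageHom hω (symm_mem h1 hmul hαA) hp))

end Vale.Agent.P095.Rel
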