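import Vale.Agent.P095.Lit.Plain
import Vale.Agent.P095.SI.Defs

/-!
P095, nonunital algebras: equivariant `Z`-stability of an action on an ideal, written with entries
only.
-/

open scoped unitInterval ComplexOrder

namespace Vale.Agent.P095.Rel

open Vale.Agent.P101.Lit Vale.Agent.P095.Lit

variable {B : Type*} [CStarAlgebra B] [PartialOrder B] [StarOrderedRing B] (A : Submodule ℂ B)

/-- `f` belongs to `A ⊗ I(p,q)`. -/
def InStOn {p q : ℕ} (f : Amb B p q) : Prop := InSt f ∧ ∀ t x y, f t x y ∈ A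

/-- `j`, restricted to `A ⊗ I(p,q)`, is an isometric star homomorphism into `A`. -/
def IsIdealEmbedding {p q : ℕ} (j : Amb B p q → B) : Prop :=
  (∀ f g h, InStOn A f → InStOn A g → InStOn A h →
      (IsSum f g h → j h = j f + j g) ∧ (IsProd f g h → j h = j f * j g)) ∧
    (∀ c f h, InStOn A f → InStOn A h →
      (IsScal c f h → j h = c • j f) ∧ (IsAdj f h → j h = star (j f))) ∧
    ∀ f, InStOn A f → j f ∈ A ∧ ‖j f‖ = ‖f‖

/-- `L` is the left action on `A` of a unitary multiplier: linear, compatible with right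
multiplication, onto, and preserving `a* b`. -/
def IsUnitaryMultiplier (L : B → B) : Prop :=
  (∀ a ∈ A, L a ∈ A ∧ (∀ r : ℂ, L (r • a) = r • L a) ∧
    ∀ b ∈ A, L (a + b) = L a + L b ∧ L (a * b) = L a * b ∧ star (L a) * L b = star a * b) ∧
    ∀ a ∈ A, ∃ b ∈ A, L b = a

/-- `α`, restricted to `A`, is cocycle conjugate to `α ⊗ id` on the limit of the stages
`A ⊗ I(pp i, qq i)`: compatible isometric homomorphisms of the stages onto a dense part of `A`
carry `α_g ⊗ id` to `Ad (u g) ∘ α_g` for an `α`-cocycle of unitary multipliers `u g`, given by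
their left actions `L g`. Here `u x u* = L (L x*)*`. -/
def IsEquivZStableOn {G : Type*} [Group G] (α : G → B ≃⋆ₐ[ℂ] B) : Prop :=
  ∃ (j : ∀ i, Amb B (pp i) (qq i) → B) (L : G → B → B),
    (∀ g, IsUnitaryMultiplier A (L g)) ∧
    (∀ g h, ∀ a ∈ A, L (g * h) (α g a) = L g (α g (L h a))) ∧
    (∀ i, IsIdealEmbedding A (j i)) ∧
    (∀ i f, InStOn A f → InStOn A (step (kl i) (kr i) f) ∧
      j (i + 1) (step (kl i) (kr i) f) = j i f) ∧
    (∀ a ∈ A, ∀ r : ℝ, 0 < r → ∃ i f, InStOn A f ∧ ‖j i f - a‖ < r) ∧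
    ∀ i g f h, InStOn A f → IsImage (α g) f h →
      j i h = L g (star (L g (star (α g (j i f)))))

end Vale.Agent.P095.Rel
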